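import Mathlib
import Vale.Agent.P126.Basic
import Vale.Agent.Common.Brouwer

/-!
# Unconditional bodies and weighted log-maximiser boxes

For any continuous nonnegative weight map `W`, a fixed point of a projected map gives positive
points `l a` of the body with `∑ i, W l a i / l a i * |z i| ≤ 2 ∑ i, W l a i` on the body.
-/

noncomputable section

open Finset
open scoped BigOperators RealInnerProductSpace

namespace Vale.Agent.P126.Uncond

variable {n : ℕ}

/-- Invariance under every change of signs of the coordinates. -/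
def IsUncond (K : Set (Fin n → ℝ)) : Prop :=
  ∀ x ∈ K, ∀ y : Fin n → ℝ, (∀ i, |y i| = |x i|) → y ∈ K

/-- The solid property. -/
def IsSolid (K : Set (Fin n → ℝ)) : Prop :=
  ∀ x ∈ K, ∀ y : Fin n → ℝ, (∀ i, |y i| ≤ |x i|) → y ∈ K

theorem IsUncond.solid {K : Set (Fin n → ℝ)} (hu : IsUncond K) (hK : IsBody K) : IsSolid K := by
  classical
  suffices H : ∀ S : Finset (Fin n), ∀ x ∈ K, ∀ y : Fin n → ℝ, (∀ i ∈ S, |y i| ≤ |x i|) →
      (∀ i ∉ S, |y i| = |x i|) → y ∈ K by
    exact fun x hx y hy => H univ x hx y (fun i _ => hy i) (fun i hi => absurd (mem_univ i) hi)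
  intro S
  induction S using Finset.induction_on with
  | empty => exact fun x hx y _ hy => hu x hx y fun i => hy i (notMem_empty i)
  | @insert j S hj ih =>
    intro x hx y hy hy'
    have hedge : ∀ s : ℝ, |s| = |x j| → Function.update y j s ∈ K := fun s hs => by
      refine ih x hx _ (fun i hi => ?_) (fun i hi => ?_)
      · have hne : i ≠ j := fun h => hj (h ▸ hi)
        simpa [Function.update_of_ne hne] using hy i (mem_insert_of_mem hi)
      · rcases eq_or_ne i j with rfl | hne
        · simpa using hs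
        · simpa [Function.update_of_ne hne] using hy' i (by simp [hne, hi])
    have hab := hy j (mem_insert_self j S)
    rcases eq_or_ne (x j) 0 with h0 | h0
    · have := hedge (y j) (by rw [h0] at hab ⊢; simpa using hab)
      simpa using this
    · have hpos : 0 < |x j| := abs_pos.2 h0
      have h1 := hedge |x j| (abs_abs _)
      have h2 := hedge (-|x j|) (by simp)
      have hy1 : y j / |x j| ≤ 1 := by
        rw [div_le_one hpos]; exact (le_abs_self _).trans hab
      have hy2 : -1 ≤ y j / |x j| := by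
        rw [le_div_iff₀ hpos]; linarith [neg_abs_le (y j)]
      have hKc : Convex ℝ K := hK.1
      have := hKc h1 h2 (a := (1 + y j / |x j|) / 2) (b := (1 - y j / |x j|) / 2)
        (by linarith) (by linarith) (by ring)
      convert this using 1
      funext i
      rcases eq_or_ne i j with rfl | hne
      · simp only [Pi.add_apply, Pi.smul_apply, smul_eq_mul, Function.update_self]
        field_simp
        ring
      · simp only [Pi.add_apply, Pi.smul_apply, smul_eq_mul, Function.update_of_ne hne]
        ring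

theorem IsSolid.abs_mem {K : Set (Fin n → ℝ)} (hs : IsSolid K) {x : Fin n → ℝ} (hx : x ∈ K) :
    (fun i => |x i|) ∈ K := hs x hx _ fun i => by simp

theorem isUncond_polar {K : Set (Fin n → ℝ)} (hu : IsUncond K) : IsUncond (polar K) := by
  classical
  intro x hx y hy z hz
  set z' : Fin n → ℝ := fun i => if y i = x i then z i else -z i with hz'
  have hmem : z' ∈ K := hu z hz _ fun i => by
    simp only [hz']; split_ifs <;> simp
  refine le_of_eq_of_le ?_ (hx _ hmem)
  refine sum_congr rfl fun i _ => ?_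
  simp only [hz']
  split_ifs with h
  · rw [h]
  · rcases abs_eq_abs.1 (hy i) with h' | h'
    · exact absurd h' h
    · rw [h']; ring

/-- Duality pairing for a solid body. -/
theorem sum_abs_mul_le {K : Set (Fin n → ℝ)} (hs : IsSolid K) {x y : Fin n → ℝ} (hx : x ∈ K)
    (hy : y ∈ polar K) : ∑ i, |x i| * |y i| ≤ 1 := by
  have hmem : (fun i => if 0 ≤ y i then |x i| else -|x i|) ∈ K := hs x hx _ fun i => by
    split_ifs <;> simp
  refine le_of_eq_of_le ?_ (hy _ hmem)
  refine sum_congr rfl fun i _ => ?_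
  dsimp only
  split_ifs with h
  · rw [abs_of_nonneg h]
  · rw [abs_of_neg (not_le.1 h)]; ring

theorem mem_polar_of_sum {K : Set (Fin n → ℝ)} {y : Fin n → ℝ}
    (h : ∀ z ∈ K, ∑ i, |y i| * |z i| ≤ 1) : y ∈ polar K := fun z hz =>
  (sum_le_sum fun i _ => le_of_abs_le (by rw [abs_mul, mul_comm])).trans (h z hz)

/-- A solution of the variational inequality of a continuous field on a compact convex set. -/
theorem exists_vi {κ : Type*} [Fintype κ] {Ω : Set (EuclideanSpace ℝ κ)} (hc : IsCompact Ω)
    (hconv : Convex ℝ Ω) (hne : Ω.Nonempty) {F : EuclideanSpace ℝ κ → EuclideanSpace ℝ κ}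
    (hF : ContinuousOn F Ω) : ∃ l ∈ Ω, ∀ z ∈ Ω, ⟪F l, z - l⟫ ≤ (0 : ℝ) := by
  choose P hPK hP using
    fun u => exists_norm_eq_iInf_of_complete_convex hne hc.isComplete hconv u
  have hobt : ∀ u, ∀ w ∈ Ω, ⟪u - P u, w - P u⟫ ≤ (0 : ℝ) := fun u =>
    (norm_eq_iInf_iff_real_inner_le_zero hconv (hPK u)).1 (hP u)
  have hlip : LipschitzWith 1 P := by
    refine LipschitzWith.of_dist_le_mul fun a b => ?_
    rw [dist_eq_norm, dist_eq_norm, NNReal.coe_one, one_mul]
    have h1 := hobt a (P b) (hPK b)
    have h2 := hobt b (P a) (hPK a)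
    have h3 : ‖P a - P b‖ ^ 2 ≤ ⟪a - b, P a - P b⟫ := by
      rw [← real_inner_self_eq_norm_sq]
      simp only [inner_sub_left, inner_sub_right] at h1 h2 ⊢
      linarith [real_inner_comm (P a) (P b)]
    have h4 := h3.trans (real_inner_le_norm _ _)
    rcases (norm_nonneg (P a - P b)).eq_or_lt with h | h
    · rw [← h]; exact norm_nonneg _
    · nlinarith
  obtain ⟨l, hl, hfix⟩ := Vale.Agent.Common.Brouwer.exists_fixed hc hconv hne
    (f := fun l => P (l + F l)) (hlip.continuous.comp_continuousOn (continuousOn_id.add hF))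
    (fun l _ => hPK _)
  refine ⟨l, hl, fun z hz => ?_⟩
  have := hobt (l + F l) z hz
  rwa [hfix, add_sub_cancel_left] at this

/-- Weighted log-maximiser boxes, with self-consistent weights. -/
theorem exists_box {ι : Type*} [Fintype ι] {L : Set (Fin n → ℝ)} (hL : IsBody L) (hs : IsSolid L)
    (W : (ι → Fin n → ℝ) → ι → Fin n → ℝ)
    (hWc : ∀ a i, ContinuousOn (fun l => W l a i) {l | ∀ a i, 0 < l a i})
    (hW0 : ∀ l : ι → Fin n → ℝ, (∀ a i, 0 < l a i) → ∀ a i, 0 ≤ W l a i) :
    ∃ l : ι → Fin n → ℝ, (∀ a, l a ∈ L ∧ ∀ i, 0 < l a i) ∧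
      ∀ a, ∀ z ∈ L, ∑ i, W l a i / l a i * |z i| ≤ 2 * ∑ i, W l a i := by
  classical
  obtain ⟨δ, hδ, hball⟩ := Metric.isOpen_iff.1 isOpen_interior _ hL.zero_mem_interior
  set r : ℝ := δ / 2 with hr
  have hr0 : 0 < r := by positivity
  have hrL : (fun _ : Fin n => r) ∈ L := by
    refine interior_subset (hball ?_)
    rw [mem_ball_zero_iff, pi_norm_lt_iff hδ]
    intro i
    rw [Real.norm_eq_abs, abs_of_pos hr0]
    linarith
  set e : EuclideanSpace ℝ (ι × Fin n) → ι → Fin n → ℝ := fun w a i => w (a, i) with he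
  set Ω : Set (EuclideanSpace ℝ (ι × Fin n)) :=
    {w | ∀ a, e w a ∈ L ∧ ∀ i, r / 2 ≤ e w a i} with hΩ
  have hec : Continuous e := by
    refine continuous_pi fun a => continuous_pi fun i => ?_
    exact (EuclideanSpace.proj (a, i)).continuous
  have hclosed : IsClosed Ω := by
    have : Ω = ⋂ a, ({w | e w a ∈ L} ∩ ⋂ i, {w | r / 2 ≤ e w a i}) := by
      ext w; simp [hΩ]
    rw [this]
    refine isClosed_iInter fun a => (hL.2.1.isClosed.preimage ?_).inter
      (isClosed_iInter fun i => isClosed_le continuous_const ?_)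
    · exact (continuous_apply a).comp hec
    · exact (continuous_apply i).comp ((continuous_apply a).comp hec)
  obtain ⟨R, hR⟩ := hL.2.1.isBounded.exists_norm_le
  have hbdd : Bornology.IsBounded Ω := by
    refine (Metric.isBounded_closedBall (x := (0 : EuclideanSpace ℝ (ι × Fin n)))
      (r := √(∑ _p : ι × Fin n, R ^ 2))).subset fun w hw => ?_
    rw [mem_closedBall_zero_iff, EuclideanSpace.norm_eq]
    refine Real.sqrt_le_sqrt (sum_le_sum fun p _ => ?_)
    have := (norm_le_pi_norm (e w p.1) p.2).trans (hR _ (hw p.1).1)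
    exact pow_le_pow_left₀ (norm_nonneg _) this 2
  have hconv : Convex ℝ Ω := by
    intro u hu v hv s t hs' ht hst a
    refine ⟨?_, fun i => ?_⟩
    · exact hL.1 (hu a).1 (hv a).1 hs' ht hst
    · have h3 := mul_le_mul_of_nonneg_left ((hu a).2 i) hs'
      have h4 := mul_le_mul_of_nonneg_left ((hv a).2 i) ht
      have h5 : s * (r / 2) + t * (r / 2) = r / 2 := by rw [← add_mul, hst, one_mul]
      simp only [he, PiLp.add_apply, PiLp.smul_apply, smul_eq_mul] at h3 h4 ⊢
      linarith
  have hne : Ω.Nonempty := ⟨WithLp.toLp 2 fun _ => r, fun a => ⟨hrL, fun i => by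
    simp only [he]; linarith⟩⟩
  have hpos : ∀ w ∈ Ω, ∀ a i, 0 < e w a i := fun w hw a i =>
    lt_of_lt_of_le (by positivity) ((hw a).2 i)
  have hFc : ContinuousOn (fun w : EuclideanSpace ℝ (ι × Fin n) =>
      WithLp.toLp 2 (fun p : ι × Fin n => W (e w) p.1 p.2 / e w p.1 p.2)) Ω := by
    refine (PiLp.continuous_toLp 2 _).comp_continuousOn (continuousOn_pi.2 fun p => ?_)
    exact ((hWc p.1 p.2).comp hec.continuousOn fun w hw => hpos w hw).div
      ((continuous_apply p.2).comp ((continuous_apply p.1).comp hec)).continuousOn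
      fun w hw => (hpos w hw p.1 p.2).ne'
  obtain ⟨w, hw, hvi⟩ := exists_vi (Metric.isCompact_of_isClosed_isBounded hclosed hbdd)
    hconv hne hFc
  refine ⟨e w, fun a => ⟨(hw a).1, hpos w hw a⟩, fun a z hz => ?_⟩
  set z' : Fin n → ℝ := fun i => |z i| / 2 + r / 2 with hz'
  have hz'L : z' ∈ L := by
    have hLc : Convex ℝ L := hL.1
    have := hLc (hs.abs_mem hz) hrL (a := 1 / 2) (b := 1 / 2)
      (by norm_num) (by norm_num) (by norm_num)
    convert this using 1
    funext i
    simp only [hz', Pi.add_apply, Pi.smul_apply, smul_eq_mul]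
    ring
  set q : EuclideanSpace ℝ (ι × Fin n) :=
    WithLp.toLp 2 fun p => if p.1 = a then z' p.2 else e w p.1 p.2 with hq
  have hqΩ : q ∈ Ω := fun b => by
    rcases eq_or_ne b a with rfl | hb
    · have hval : e q b = z' := by funext i; simp [he, hq]
      rw [hval]
      exact ⟨hz'L, fun i => by simp only [hz']; linarith [abs_nonneg (z i)]⟩
    · have hval : e q b = e w b := by funext i; simp [he, hq, hb]
      rw [hval]
      exact hw b
  have h := hvi q hqΩ
  rw [PiLp.inner_apply, Fintype.sum_prod_type,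
    Finset.sum_eq_single a (fun b _ hb => by simp [he, hq, hb]) (by simp)] at h
  simp only [hq, PiLp.sub_apply, if_pos, RCLike.inner_apply, conj_trivial] at h
  have hterm : ∀ i, W (e w) a i / e w a i * |z i| ≤
      2 * ((z' i - w (a, i)) * (W (e w) a i / e w a i)) + 2 * W (e w) a i := fun i => by
    have hp := hpos w hw a i
    have hW := hW0 (e w) (hpos w hw) a i
    have hd : 0 ≤ W (e w) a i / e w a i * r := by positivity
    have e1 : W (e w) a i / e w a i * w (a, i) = W (e w) a i := div_mul_cancel₀ _ hp.ne'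
    simp only [hz']
    nlinarith
  refine (sum_le_sum fun i _ => hterm i).trans ?_
  rw [sum_add_distrib, ← mul_sum, ← mul_sum]
  linarith

end Vale.Agent.P126.Uncond

end
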