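import Mathlib
import Vale.Agent.P126.Uncond.Fixed

/-!
# A covering lower bound for a box by the polar of a solid body
-/

noncomputable section

open Finset MeasureTheory
open scoped BigOperators

namespace Vale.Agent.P126.Uncond

variable {n : ℕ}

/-- Projection of the line to the unit interval. -/
def clamp01 (u : ℝ) : ℝ := max 0 (min 1 u)

theorem clamp01_nonneg (u : ℝ) : 0 ≤ clamp01 u := le_max_left _ _

theorem clamp01_le_one (u : ℝ) : clamp01 u ≤ 1 := max_le zero_le_one (min_le_left _ _)

theorem continuous_clamp01 : Continuous clamp01 :=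
  continuous_const.max (continuous_const.min continuous_id)

theorem clamp01_of_mem {u : ℝ} (h0 : 0 ≤ u) (h1 : u ≤ 1) : clamp01 u = u := by
  rw [clamp01, min_eq_right h1, max_eq_right h0]

theorem clamp01_pos_iff {u : ℝ} : 0 < clamp01 u ↔ 0 < u := by simp [clamp01]

theorem clamp01_eq_one {u : ℝ} (h : 1 ≤ u) : clamp01 u = 1 := by
  simp [clamp01, min_eq_left h]

/-- The average of an exponential weight over the unit interval. -/
def avgExp (t c : ℝ) : ℝ :=
  ∫ u in (0 : ℝ)..1, Real.exp (-(t * |clamp01 u - c|))

theorem avgExp_eq (t c : ℝ) :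
    avgExp t c = ∫ u in (0 : ℝ)..1, Real.exp (-(t * |u - c|)) := by
  refine intervalIntegral.integral_congr fun u hu => ?_
  rw [Set.uIcc_of_le zero_le_one] at hu
  simp only [clamp01_of_mem hu.1 hu.2]

theorem avgExp_nonneg (t c : ℝ) : 0 ≤ avgExp t c :=
  intervalIntegral.integral_nonneg zero_le_one fun _ _ => (Real.exp_pos _).le

theorem avgExp_le_one {t : ℝ} (ht : 0 ≤ t) (c : ℝ) : avgExp t c ≤ 1 := by
  rw [avgExp_eq]
  refine (intervalIntegral.integral_mono_on (g := fun _ => (1 : ℝ)) zero_le_one ?_ ?_
    fun u _ => ?_).trans (by simp)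
  · exact (by fun_prop : Continuous fun u : ℝ => Real.exp (-(t * |u - c|))).intervalIntegrable _ _
  · exact intervalIntegrable_const
  · exact Real.exp_le_one_iff.2 (neg_nonpos.2 (mul_nonneg ht (abs_nonneg _)))

theorem avgExp_le_half {t : ℝ} (ht : 0 ≤ t) (c : ℝ) :
    avgExp t c ≤ (1 + Real.exp (-(t / 2))) / 2 := by
  rw [avgExp_eq]
  set f : ℝ → ℝ := fun u => Real.exp (-(t * |u - c|)) with hf
  have hc : Continuous f := by fun_prop
  have hc2 : Continuous fun u => f (u + 1 / 2) := hc.comp (continuous_id.add continuous_const)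
  have h1 : ∫ u in (1 / 2 : ℝ)..1, f u = ∫ u in (0 : ℝ)..(1 / 2), f (u + 1 / 2) := by
    rw [intervalIntegral.integral_comp_add_right]; norm_num
  rw [← intervalIntegral.integral_add_adjacent_intervals (hc.intervalIntegrable 0 (1 / 2))
    (hc.intervalIntegrable (1 / 2) 1), h1, ← intervalIntegral.integral_add
    (hc.intervalIntegrable _ _) (hc2.intervalIntegrable _ _)]
  refine (intervalIntegral.integral_mono_on (g := fun _ => 1 + Real.exp (-(t / 2)))
    (by norm_num) ((hc.add hc2).intervalIntegrable _ _) intervalIntegrable_const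
    fun u _ => ?_).trans (by simp; linarith)
  have a1 : f u ≤ 1 := Real.exp_le_one_iff.2 (neg_nonpos.2 (mul_nonneg ht (abs_nonneg _)))
  have a2 : f (u + 1 / 2) ≤ 1 :=
    Real.exp_le_one_iff.2 (neg_nonpos.2 (mul_nonneg ht (abs_nonneg _)))
  have a3 : f u * f (u + 1 / 2) ≤ Real.exp (-(t / 2)) := by
    simp only [hf, ← Real.exp_add]
    refine Real.exp_le_exp.2 ?_
    have h := abs_sub (u + 1 / 2 - c) (u - c)
    rw [show u + 1 / 2 - c - (u - c) = (1 / 2 : ℝ) by ring, abs_of_pos (by norm_num : (0 : ℝ) < 1 / 2)]
      at h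
    nlinarith
  simp only [Pi.add_apply]
  nlinarith [mul_nonneg (sub_nonneg.2 a1) (sub_nonneg.2 a2)]

theorem avgExp_le_inv {t : ℝ} (ht : 0 < t) (c : ℝ) : avgExp t c ≤ 2 / t := by
  rw [avgExp_eq]
  set c' := clamp01 c with hc'
  have hf : Continuous fun u : ℝ => Real.exp (-(t * |u - c|)) := by fun_prop
  have hg : Continuous fun u : ℝ => Real.exp (-(t * |u - c'|)) := by fun_prop
  refine (intervalIntegral.integral_mono_on zero_le_one (hf.intervalIntegrable _ _)
    (hg.intervalIntegrable _ _) fun u hu => ?_).trans ?_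
  · refine Real.exp_le_exp.2 (neg_le_neg (mul_le_mul_of_nonneg_left ?_ ht.le))
    rcases lt_trichotomy c c' with h | h | h
    · have : c' = 0 := by
        simp only [hc', clamp01] at h ⊢
        rcases le_total c 1 with h1 | h1 <;> rcases le_total c 0 with h2 | h2 <;>
          simp [h1, h2] at h ⊢ <;> linarith
      rw [this, sub_zero, abs_of_nonneg hu.1, abs_of_nonneg (by linarith [hu.1])]
      linarith
    · rw [h]
    · have : c' = 1 := by
        simp only [hc', clamp01] at h ⊢
        rcases le_total c 1 with h1 | h1 <;> rcases le_total c 0 with h2 | h2 <;>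
          simp [h1, h2] at h ⊢ <;> linarith
      rw [this, abs_of_nonpos (by linarith [hu.2]), abs_of_nonpos (by linarith [hu.2])]
      linarith
  · rw [← intervalIntegral.integral_add_adjacent_intervals (hg.intervalIntegrable 0 c')
      (hg.intervalIntegrable c' 1)]
    have e1 : ∫ u in (0 : ℝ)..c', Real.exp (-(t * |u - c'|)) =
        (1 - Real.exp (-(t * c'))) / t := by
      rw [intervalIntegral.integral_eq_sub_of_hasDerivAt
        (f := fun u => Real.exp (t * (u - c')) / t) (fun u hu => ?_) (hg.intervalIntegrable _ _)]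
      · simp; ring_nf
      · rw [Set.uIcc_of_le (clamp01_nonneg c)] at hu
        rw [abs_of_nonpos (by linarith [hu.2]), show -(t * -(u - c')) = t * (u - c') by ring]
        refine ((((hasDerivAt_id' u).sub_const c').const_mul t).exp.div_const t).congr_deriv ?_
        field_simp
    have e2 : ∫ u in c'..(1 : ℝ), Real.exp (-(t * |u - c'|)) =
        (1 - Real.exp (-(t * (1 - c')))) / t := by
      rw [intervalIntegral.integral_eq_sub_of_hasDerivAt
        (f := fun u => -Real.exp (-(t * (u - c'))) / t) (fun u hu => ?_) (hg.intervalIntegrable _ _)]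
      · simp; ring
      · rw [Set.uIcc_of_le (clamp01_le_one c)] at hu
        rw [abs_of_nonneg (by linarith [hu.1])]
        refine ((((hasDerivAt_id' u).sub_const c').const_mul t).fun_neg.exp.fun_neg.div_const t).congr_deriv
          ?_
        field_simp
    rw [e1, e2, ← add_div]
    refine (div_le_div_iff_of_pos_right ht).2 ?_
    linarith [Real.exp_pos (-(t * c')), Real.exp_pos (-(t * (1 - c')))]

/-- A box inside `polar L` needs many translates of `polar K` when `x ∈ K`. -/
theorem box_count {K L : Set (Fin n → ℝ)} (hK : IsBody K) (hL : IsBody L) (hs : IsSolid K)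
    {x : Fin n → ℝ} (hx : x ∈ K) {v : Fin n → ℝ} (hv : ∀ i, 0 ≤ v i)
    (hvL : ∀ z ∈ L, ∑ i, v i * |z i| ≤ 1) {ell : ℝ} (hell : 0 ≤ ell) (b : Fin n → ℝ)
    (hb : ∀ i c, avgExp (ell * (v i * |x i|)) c ≤ b i) :
    1 ≤ (covNum (polar L) (polar K) : ℝ) * Real.exp ell * ∏ i, b i := by
  classical
  obtain ⟨c, hc⟩ := coveredBy_covNum (isBody_polar hL).2.1 (isBody_polar hK).2.2.1
  set ν : Measure ℝ := volume.restrict (Set.Ioc (0 : ℝ) 1) with hν
  have : IsProbabilityMeasure ν := ⟨by simp [hν]⟩
  set f : Fin (covNum (polar L) (polar K)) → Fin n → ℝ → ℝ :=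
    fun j i u => Real.exp (-(ell * |x i| * |v i * clamp01 u - c j i|)) with hf
  have hint : ∀ j i, Integrable (f j i) ν := fun j i => by
    refine Integrable.of_bound (C := 1) ?_ (Filter.Eventually.of_forall fun u => ?_)
    · have : Continuous (f j i) := by
        simp only [hf]
        have := continuous_clamp01
        fun_prop
      exact this.aestronglyMeasurable
    · rw [Real.norm_eq_abs, abs_of_pos (Real.exp_pos _)]
      exact Real.exp_le_one_iff.2 (neg_nonpos.2 (by positivity))
  have hint2 : ∀ j, Integrable (fun u : Fin n → ℝ => Real.exp ell * ∏ i, f j i (u i))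
      (Measure.pi fun _ => ν) := fun j => (Integrable.fintype_prod (hint j)).const_mul _
  have hpt : ∀ u : Fin n → ℝ, 1 ≤ ∑ j, Real.exp ell * ∏ i, f j i (u i) := by
    intro u
    have hmem : (fun i => v i * clamp01 (u i)) ∈ polar L := mem_polar_of_sum fun z hz => by
      refine (sum_le_sum fun i _ => ?_).trans (hvL z hz)
      rw [abs_of_nonneg (mul_nonneg (hv i) (clamp01_nonneg _))]
      exact mul_le_mul_of_nonneg_right (mul_le_of_le_one_right (hv i) (clamp01_le_one _))
        (abs_nonneg _)
    obtain ⟨j, y, hy, hjy⟩ := Set.mem_iUnion.1 (hc hmem)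
    have hsum := sum_abs_mul_le hs hx hy
    have hyi : ∀ i, y i = v i * clamp01 (u i) - c j i := fun i => by
      have := congrFun hjy i
      simp only [Pi.add_apply] at this
      linarith
    refine le_trans ?_ (single_le_sum (fun k _ => by positivity) (mem_univ j))
    simp only [hf]
    rw [← Real.exp_sum, ← Real.exp_add, Real.one_le_exp_iff]
    simp only [← hyi]
    rw [sum_neg_distrib]
    have : ∑ i, ell * |x i| * |y i| = ell * ∑ i, |x i| * |y i| := by
      rw [mul_sum]; exact sum_congr rfl fun i _ => by ring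
    rw [this]
    nlinarith
  have h1 := integral_mono (integrable_const (1 : ℝ)) (integrable_finsetSum _ fun j _ => hint2 j)
    hpt
  rw [integral_const, probReal_univ, one_smul, integral_finsetSum _ fun j _ => hint2 j] at h1
  simp only [integral_const_mul, integral_fintype_prod_eq_prod] at h1
  refine h1.trans ((sum_le_card_nsmul univ _ (Real.exp ell * ∏ i, b i) fun j _ => ?_).trans ?_)
  · refine mul_le_mul_of_nonneg_left (prod_le_prod (fun i _ => integral_nonneg fun u =>
      (Real.exp_pos _).le) fun i _ => ?_) (Real.exp_pos _).le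
    refine le_trans ?_ (hb i (c j i / v i))
    rw [avgExp, intervalIntegral.integral_of_le zero_le_one]
    refine integral_mono (hint j i) ?_ fun u => ?_
    · refine Integrable.of_bound (C := 1) ?_ (Filter.Eventually.of_forall fun u => ?_)
      · refine Continuous.aestronglyMeasurable ?_
        have := continuous_clamp01
        fun_prop
      · rw [Real.norm_eq_abs, abs_of_pos (Real.exp_pos _)]
        exact Real.exp_le_one_iff.2 (neg_nonpos.2
          (mul_nonneg (mul_nonneg hell (mul_nonneg (hv i) (abs_nonneg _))) (abs_nonneg _)))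
    · refine Real.exp_le_exp.2 (neg_le_neg ?_)
      rcases (hv i).eq_or_lt with h | h
      · rw [← h]; simp only [zero_mul, mul_zero, zero_sub, abs_neg]; positivity
      · rw [show v i * clamp01 u - c j i = v i * (clamp01 u - c j i / v i) by field_simp,
          abs_mul, abs_of_pos h]
        exact le_of_eq (by ring)
  · simp [nsmul_eq_mul, mul_assoc]

end Vale.Agent.P126.Uncond

end
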