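import Mathlib
import Vale.Agent.P126.Uncond.Box

/-!
# Few large coordinates, and a code for a coordinate piece
-/

noncomputable section

open Finset
open scoped BigOperators

namespace Vale.Agent.P126.Uncond

variable {n : ℕ}

/-- The logarithm of the dual covering number. -/
def dualEnt (K L : Set (Fin n → ℝ)) : ℝ := Real.log (covNum (polar L) (polar K))

theorem covNum_pos {A B : Set (Fin n → ℝ)} (hA : IsCompact A) (hne : A.Nonempty)
    (hB : (interior B).Nonempty) : 0 < covNum A B := by
  obtain ⟨v, hv⟩ := coveredBy_covNum hA hB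
  obtain ⟨x, hx⟩ := hne
  obtain ⟨i, -⟩ := Set.mem_iUnion.1 (hv hx)
  exact Nat.lt_of_le_of_lt (Nat.zero_le _) i.2

theorem exp_dualEnt {K L : Set (Fin n → ℝ)} (hK : IsBody K) (hL : IsBody L) :
    Real.exp (dualEnt K L) = covNum (polar L) (polar K) :=
  Real.exp_log (Nat.cast_pos.2 (covNum_pos (isBody_polar hL).2.1 ⟨0, (isBody_polar hL).zero_mem⟩
    (isBody_polar hK).2.2.1))

theorem dualEnt_nonneg (K L : Set (Fin n → ℝ)) : 0 ≤ dualEnt K L := Real.log_natCast_nonneg _

/-- All but few coordinates of a point of `K` are dominated by a point of `L`. -/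
theorem exists_few_large {K L : Set (Fin n → ℝ)} (hK : IsBody K) (hsK : IsSolid K)
    (hL : IsBody L) (hsL : IsSolid L) {x : Fin n → ℝ} (hx : x ∈ K) :
    ∃ g : Fin n → ℝ, g ∈ L ∧ (∀ i, 0 < g i) ∧
      ((univ.filter fun i => 48 * g i < |x i|).card : ℝ) ≤ 12 * dualEnt K L := by
  classical
  set W : (Unit → Fin n → ℝ) → Unit → Fin n → ℝ :=
    fun l a i => clamp01 (|x i| / (24 * l a i) - 1) with hW
  obtain ⟨l, hl, hbox⟩ := exists_box hL hsL W (fun a i => by
      refine continuous_clamp01.comp_continuousOn ((continuousOn_const.div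
        (continuousOn_const.mul ?_) ?_).sub continuousOn_const)
      · exact ((continuous_apply i).comp (continuous_apply a)).continuousOn
      · exact fun l hl => (mul_pos (by norm_num) (hl a i)).ne')
    (fun l _ a i => clamp01_nonneg _)
  refine ⟨l (), (hl ()).1, (hl ()).2, ?_⟩
  set θ : Fin n → ℝ := W l () with hθ
  set M := ∑ i, θ i with hM
  have hθ0 : ∀ i, 0 ≤ θ i := fun i => clamp01_nonneg _
  have hθ1 : ∀ i, θ i ≤ 1 := fun i => clamp01_le_one _
  have hcard : ((univ.filter fun i => 48 * l () i < |x i|).card : ℝ) ≤ M := by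
    rw [hM, card_eq_sum_ones, Nat.cast_sum, sum_filter]
    refine sum_le_sum fun i _ => ?_
    split_ifs with h
    · rw [Nat.cast_one]
      refine (clamp01_eq_one ?_).ge
      have hp := (hl ()).2 i
      rw [le_sub_iff_add_le, le_div_iff₀ (by positivity)]
      linarith
    · exact hθ0 i
  refine hcard.trans ?_
  rcases (show 0 ≤ M from sum_nonneg fun i _ => hθ0 i).eq_or_lt with h0 | hMpos
  · rw [← h0]; linarith [dualEnt_nonneg K L]
  set v : Fin n → ℝ := fun i => θ i / l () i / (2 * M) with hv
  have hvL : ∀ z ∈ L, ∑ i, v i * |z i| ≤ 1 := fun z hz => by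
    have := hbox () z hz
    simp only [hv]
    rw [sum_congr rfl fun i _ => div_mul_eq_mul_div _ (2 * M) (|z i|), ← sum_div,
      div_le_one (by positivity)]
    exact this
  have hv0 : ∀ i, 0 ≤ v i := fun i => by
    simp only [hv]
    have := (hl ()).2 i
    have := hθ0 i
    positivity
  have key := box_count hK hL hsK hx hv0 hvL (ell := M / 12) (by positivity)
    (fun i => Real.exp (-(θ i / 6))) fun i c => by
      have hp := (hl ()).2 i
      rcases (hθ0 i).eq_or_lt with h | h
      · rw [← h, zero_div, neg_zero, Real.exp_zero]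
        exact avgExp_le_one (mul_nonneg (by positivity) (mul_nonneg (hv0 i) (abs_nonneg _))) c
      · have hbig : 24 * l () i < |x i| := by
          have h' : 0 < |x i| / (24 * l () i) - 1 := clamp01_pos_iff.1 h
          rw [sub_pos, one_lt_div (by positivity)] at h'
          exact h'
        have ht : θ i ≤ M / 12 * (v i * |x i|) := by
          have e : M / 12 * (v i * |x i|) = θ i * (|x i| / (24 * l () i)) := by
            simp only [hv]; field_simp; ring
          rw [e]
          refine le_mul_of_one_le_right (hθ0 i) ?_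
          rw [one_le_div (by positivity)]
          exact hbig.le
        refine (avgExp_le_half ((hθ0 i).trans ht) c).trans ?_
        have he : Real.exp (-(M / 12 * (v i * |x i|) / 2)) ≤ Real.exp (-(θ i / 2)) :=
          Real.exp_le_exp.2 (by linarith)
        have h1 : (1 + θ i / 2) * Real.exp (-(θ i / 2)) ≤ 1 := by
          rw [Real.exp_neg, mul_inv_le_iff₀ (Real.exp_pos _), one_mul]
          linarith [Real.add_one_le_exp (θ i / 2)]
        have h2 := Real.add_one_le_exp (-(θ i / 6))
        nlinarith [hθ1 i, Real.exp_pos (-(θ i / 2))]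
  rw [← exp_dualEnt hK hL, ← Real.exp_sum, ← Real.exp_add, ← Real.exp_add,
    Real.one_le_exp_iff, sum_neg_distrib, ← sum_div] at key
  linarith

theorem sum_exp_range_le {c : ℝ} (hc : 0 < c) (m : ℕ) :
    ∑ q ∈ range m, Real.exp (-((q : ℝ) * c)) ≤ 1 + 1 / c := by
  set r := Real.exp (-c) with hr
  have e : ∀ q : ℕ, Real.exp (-((q : ℝ) * c)) = r ^ q := fun q => by
    rw [hr, ← Real.exp_nat_mul]; ring_nf
  have hS : ∑ q ∈ range m, Real.exp (-((q : ℝ) * c)) = ∑ q ∈ range m, r ^ q :=
    sum_congr rfl fun q _ => e q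
  rw [hS]
  have hg : (∑ q ∈ range m, r ^ q) * (1 - r) = 1 - r ^ m := geom_sum_mul_neg r m
  have hrle : (1 + c) * r ≤ 1 := by
    rw [hr, Real.exp_neg, mul_inv_le_iff₀ (Real.exp_pos _), one_mul]
    linarith [Real.add_one_le_exp c]
  have hS0 : 0 ≤ ∑ q ∈ range m, r ^ q := sum_nonneg fun q _ => pow_nonneg (Real.exp_pos _).le q
  have hm : 0 ≤ r ^ m := pow_nonneg (Real.exp_pos _).le m
  have : (∑ q ∈ range m, r ^ q) * c ≤ 1 + c := by
    nlinarith [mul_nonneg hS0 (sub_nonneg.2 hrle)]
  calc ∑ q ∈ range m, r ^ q ≤ (1 + c) / c := (le_div_iff₀ hc).2 this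
    _ = 1 + 1 / c := by rw [add_div, div_self hc.ne', add_comm]

/-- The points of `K` in a set of `k` coordinates have few codes at the scale of `L`. -/
theorem exists_code {K L : Set (Fin n → ℝ)} (hK : IsBody K) (hsK : IsSolid K)
    (hL : IsBody L) (hsL : IsSolid L) (T : Finset (Fin n)) :
    ∃ (g : Fin n → ℝ) (Q : Finset (Finset (Fin n) × (Fin n → ℕ))), g ∈ L ∧ (∀ i, 0 < g i) ∧
      (Q.card : ℝ) ≤ Real.exp (dualEnt K L + 6 * T.card) ∧
      ∀ z ∈ K, (T.filter (fun i => z i < 0),
        fun i => if i ∈ T then ⌊|z i| / g i⌋₊ else 0) ∈ Q := by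
  classical
  set one : Fin n → ℝ := fun i => if i ∈ T then 1 else 0 with hone
  have hW0 : ∀ i, 0 ≤ one i := fun i => by simp only [hone]; split_ifs <;> norm_num
  have hsum1 : ∑ i, one i = T.card := by simp [hone]
  obtain ⟨xs', hxs, hboxK⟩ := exists_box (ι := Unit) hK hsK (fun _ _ i => one i)
    (fun _ _ => continuousOn_const) (fun _ _ _ i => hW0 i)
  obtain ⟨g', hg, hboxL⟩ := exists_box (ι := Unit) hL hsL (fun _ _ i => one i)
    (fun _ _ => continuousOn_const) (fun _ _ _ i => hW0 i)
  set g := g' () with hgdef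
  set xs := xs' () with hxsdef
  have hgpos : ∀ i, 0 < g i := (hg ()).2
  have hxpos : ∀ i, 0 < xs i := (hxs ()).2
  set k : ℝ := (T.card : ℝ) with hk
  have hk0 : 0 ≤ k := Nat.cast_nonneg _
  set c : Fin n → ℝ := fun i => g i / xs i with hc
  have hcpos : ∀ i, 0 < c i := fun i => div_pos (hgpos i) (hxpos i)
  set m : Fin n → ℕ := fun i => if i ∈ T then ⌊2 * k / c i⌋₊ else 0 with hm
  set Q0 : Finset (Fin n → ℕ) := (Fintype.piFinset fun i => range (m i + 1)).filter
    (fun q => ∑ i, (q i : ℝ) * c i ≤ 2 * k) with hQ0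
  refine ⟨g, T.powerset ×ˢ Q0, (hg ()).1, hgpos, ?_, fun z hz => ?_⟩
  · -- the count
    have h1 : (Q0.card : ℝ) ≤ Real.exp (2 * k) *
        ∏ i, ∑ q ∈ range (m i + 1), Real.exp (-((q : ℝ) * c i)) := by
      rw [prod_univ_sum, mul_sum, card_eq_sum_ones, Nat.cast_sum, hQ0, sum_filter]
      refine sum_le_sum fun q _ => ?_
      rw [← Real.exp_sum, ← Real.exp_add, sum_neg_distrib]
      split_ifs with h
      · rw [Nat.cast_one, Real.one_le_exp_iff]; linarith
      · exact (Real.exp_pos _).le
    set b : Fin n → ℝ := fun i => if i ∈ T then min 1 (2 / (xs i / g i)) else 1 with hb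
    set v : Fin n → ℝ := fun i => one i / g i / (2 * k) with hv
    have hv0 : ∀ i, 0 ≤ v i := fun i => by
      simp only [hv]
      have := hgpos i
      have := hW0 i
      positivity
    have hvL : ∀ z ∈ L, ∑ i, v i * |z i| ≤ 1 := fun z hz => by
      have h := hboxL () z hz
      rw [hsum1] at h
      simp only [hv]
      rw [sum_congr rfl fun i _ => div_mul_eq_mul_div _ (2 * k) (|z i|), ← sum_div]
      exact div_le_one_of_le₀ h (by positivity)
    have key := box_count hK hL hsK (hxs ()).1 hv0 hvL (ell := 2 * k) (by positivity) b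
      fun i c => by
        by_cases hi : i ∈ T
        · have hk1 : (0 : ℝ) < k := Nat.cast_pos.2 (card_pos.2 ⟨i, hi⟩)
          have e : 2 * k * (v i * |xs i|) = xs i / g i := by
            simp only [hv, hone, if_pos hi, abs_of_pos (hxpos i)]
            field_simp
          rw [e]
          simp only [hb, if_pos hi]
          exact le_min (avgExp_le_one (div_pos (hxpos i) (hgpos i)).le c)
            (avgExp_le_inv (div_pos (hxpos i) (hgpos i)) c)
        · simp only [hb, if_neg hi]
          exact avgExp_le_one (by have := hv0 i; positivity) c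
    rw [← exp_dualEnt hK hL, ← Real.exp_add] at key
    have hterm : ∀ i, (∑ q ∈ range (m i + 1), Real.exp (-((q : ℝ) * c i))) * b i ≤
        if i ∈ T then 3 else 1 := fun i => by
      by_cases hi : i ∈ T
      · simp only [hb, if_pos hi]
        have hs := sum_exp_range_le (hcpos i) (m i + 1)
        have h1c : 1 / c i = xs i / g i := by simp only [hc, one_div_div]
        rw [h1c] at hs
        set t := xs i / g i with ht
        have htpos : 0 < t := div_pos (hxpos i) (hgpos i)
        refine (mul_le_mul_of_nonneg_right hs (by positivity)).trans ?_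
        rcases le_total t 2 with h2 | h2
        · nlinarith [min_le_left (1 : ℝ) (2 / t)]
        · have e : (1 + t) * (2 / t) = 2 / t + 2 := by field_simp
          have h3 : 2 / t ≤ 1 := (div_le_one htpos).2 h2
          nlinarith [min_le_right (1 : ℝ) (2 / t)]
      · simp [hb, hm, hi]
    have hprod : (∏ i, ∑ q ∈ range (m i + 1), Real.exp (-((q : ℝ) * c i))) * ∏ i, b i ≤
        (3 : ℝ) ^ T.card := by
      rw [← prod_mul_distrib]
      refine (prod_le_prod (fun i _ => ?_) fun i _ => hterm i).trans_eq (by simp [prod_ite_mem])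
      refine mul_nonneg (sum_nonneg fun q _ => (Real.exp_pos _).le) ?_
      simp only [hb]
      have := div_pos (hxpos i) (hgpos i)
      split_ifs <;> positivity
    have hA : 0 ≤ ∏ i, ∑ q ∈ range (m i + 1), Real.exp (-((q : ℝ) * c i)) :=
      prod_nonneg fun i _ => sum_nonneg fun q _ => (Real.exp_pos _).le
    set A := ∏ i, ∑ q ∈ range (m i + 1), Real.exp (-((q : ℝ) * c i))
    set B := ∏ i, b i
    have hA2 : A ≤ Real.exp (dualEnt K L + 2 * k) * (3 : ℝ) ^ T.card := by
      calc A = A * 1 := (mul_one A).symm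
        _ ≤ A * (Real.exp (dualEnt K L + 2 * k) * B) := mul_le_mul_of_nonneg_left key hA
        _ = Real.exp (dualEnt K L + 2 * k) * (A * B) := by ring
        _ ≤ _ := mul_le_mul_of_nonneg_left hprod (Real.exp_pos _).le
    have h6 : (6 : ℝ) ^ T.card ≤ Real.exp (2 * k) := by
      rw [hk, mul_comm, Real.exp_nat_mul]
      refine pow_le_pow_left₀ (by norm_num) ?_ _
      rw [show (2 : ℝ) = 1 + 1 by norm_num, Real.exp_add]
      nlinarith [Real.exp_one_gt_d9]
    rw [card_product, card_powerset, Nat.cast_mul, Nat.cast_pow, Nat.cast_ofNat]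
    calc (2 : ℝ) ^ T.card * Q0.card
        ≤ 2 ^ T.card * (Real.exp (2 * k) *
            (Real.exp (dualEnt K L + 2 * k) * 3 ^ T.card)) :=
          mul_le_mul_of_nonneg_left
            (h1.trans (mul_le_mul_of_nonneg_left hA2 (Real.exp_pos _).le)) (by positivity)
      _ = Real.exp (dualEnt K L + 4 * k) * 6 ^ T.card := by
          rw [show (6 : ℝ) = 2 * 3 by norm_num, mul_pow,
            show dualEnt K L + 4 * k = 2 * k + (dualEnt K L + 2 * k) by ring,
            Real.exp_add (2 * k)]
          ring
      _ ≤ Real.exp (dualEnt K L + 4 * k) * Real.exp (2 * k) :=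
          mul_le_mul_of_nonneg_left h6 (Real.exp_pos _).le
      _ = _ := by rw [← Real.exp_add]; ring_nf
  · refine mem_product.2 ⟨mem_powerset.2 (filter_subset _ _), mem_filter.2 ⟨?_, ?_⟩⟩
    · refine Fintype.mem_piFinset.2 fun i => mem_range.2 (Nat.lt_succ_of_le ?_)
      simp only [hm]
      split_ifs with hi
      · refine Nat.floor_le_floor ?_
        have h := hboxK () z hz
        rw [hsum1] at h
        have h1 : one i / xs i * |z i| ≤ 2 * k :=
          (single_le_sum (f := fun i => one i / xs i * |z i|)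
            (fun j _ => mul_nonneg (div_nonneg (hW0 j) (hxpos j).le) (abs_nonneg _))
            (mem_univ i)).trans h
        simp only [hone, if_pos hi] at h1
        have hx := hxpos i
        have hg := hgpos i
        calc |z i| / g i = 1 / xs i * |z i| / c i := by simp only [hc]; field_simp
          _ ≤ 2 * k / c i := div_le_div_of_nonneg_right h1 (hcpos i).le
      · rfl
    · have h := hboxK () z hz
      rw [hsum1] at h
      refine le_trans (sum_le_sum fun i _ => ?_) h
      simp only [hone]
      split_ifs with hi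
      · have hx := hxpos i
        have hg := hgpos i
        calc (⌊|z i| / g i⌋₊ : ℝ) * c i ≤ |z i| / g i * c i :=
              mul_le_mul_of_nonneg_right (Nat.floor_le (by positivity)) (hcpos i).le
          _ = 1 / xs i * |z i| := by simp only [hc]; field_simp
      · simp

end Vale.Agent.P126.Uncond

end
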