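import Mathlib

/-!
# Chain-rule surprisals of a weight on finite subsets, and a Kraft count

For a positive weight `μ` on subsets of `Fin n`, `hsur μ T i` is minus the logarithm of the
probability that `i` is the next element after the elements of `T` below `i`. Sets with few
surprisal outside a fixed set `S0` are few.
-/

noncomputable section

open Finset
open scoped BigOperators

namespace Vale.Agent.P126.Uncond

variable {n : ℕ}

/-- `R` is an initial segment of `T`. -/
def IsPre (R T : Finset (Fin n)) : Prop := R ⊆ T ∧ ∀ i ∈ T, ∀ j ∈ R, i ≤ j → i ∈ R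

instance (R T : Finset (Fin n)) : Decidable (IsPre R T) := by unfold IsPre; infer_instance

/-- The mass of the sets with the initial segment `R`. -/
def cyl (μ : Finset (Fin n) → ℝ) (R : Finset (Fin n)) : ℝ :=
  ∑ T ∈ univ.filter (IsPre R), μ T

/-- The surprisal of the element `i` of `T` given the elements below it. -/
def hsur (μ : Finset (Fin n) → ℝ) (T : Finset (Fin n)) (i : Fin n) : ℝ :=
  Real.log (cyl μ (T.filter (· < i))) - Real.log (cyl μ (T.filter (· ≤ i)))

theorem isPre_refl (T : Finset (Fin n)) : IsPre T T := ⟨subset_rfl, fun i hi _ _ _ => hi⟩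

theorem cyl_empty (μ : Finset (Fin n) → ℝ) : cyl μ ∅ = ∑ T, μ T := by
  unfold cyl
  rw [filter_true_of_mem fun T _ => ⟨empty_subset _, fun _ _ j hj => absurd hj (notMem_empty j)⟩]

theorem le_cyl {μ : Finset (Fin n) → ℝ} (hμ : ∀ T, 0 < μ T) (T : Finset (Fin n)) :
    μ T ≤ cyl μ T :=
  single_le_sum (fun S _ => (hμ S).le) (mem_filter.2 ⟨mem_univ _, isPre_refl T⟩)

theorem cyl_pos {μ : Finset (Fin n) → ℝ} (hμ : ∀ T, 0 < μ T) (T : Finset (Fin n)) :
    0 < cyl μ T := (hμ T).trans_le (le_cyl hμ T)

theorem hsur_nonneg {μ : Finset (Fin n) → ℝ} (hμ : ∀ T, 0 < μ T) (T : Finset (Fin n))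
    (i : Fin n) : 0 ≤ hsur μ T i := by
  refine sub_nonneg.2 (Real.log_le_log (cyl_pos hμ _) ?_)
  refine sum_le_sum_of_subset_of_nonneg (fun S hS => ?_) fun S _ _ => (hμ S).le
  simp only [mem_filter, mem_univ, true_and] at hS ⊢
  obtain ⟨h1, h2⟩ := hS
  refine ⟨fun x hx => h1 ?_, fun x hx j hj hxj => ?_⟩
  · simp only [mem_filter] at hx ⊢
    exact ⟨hx.1, hx.2.le⟩
  · simp only [mem_filter] at hj ⊢
    have := h2 x hx j (mem_filter.2 ⟨hj.1, hj.2.le⟩) hxj
    exact ⟨(mem_filter.1 this).1, lt_of_le_of_lt hxj hj.2⟩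

theorem sum_hsur (μ : Finset (Fin n) → ℝ) (T : Finset (Fin n)) :
    ∑ i ∈ T, hsur μ T i = Real.log (cyl μ ∅) - Real.log (cyl μ T) := by
  induction T using Finset.induction_on_max with
  | empty => simp
  | insert a T hmax ih =>
    have hnot : a ∉ T := fun h => lt_irrefl a (hmax a h)
    have h1 : ∀ j ∈ T, hsur μ (insert a T) j = hsur μ T j := fun j hj => by
      unfold hsur
      rw [filter_insert, filter_insert, if_neg (not_lt.2 (hmax j hj).le),
        if_neg (not_le.2 (hmax j hj))]
    rw [sum_insert hnot, sum_congr rfl h1, ih]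
    unfold hsur
    rw [filter_insert, filter_insert, if_neg (lt_irrefl a), if_pos le_rfl,
      filter_true_of_mem (fun x hx => hmax x hx), filter_true_of_mem fun x hx => (hmax x hx).le]
    ring

/-- The elements above every element of `R`. -/
def above (R : Finset (Fin n)) : Finset (Fin n) := univ.filter fun i => ∀ r ∈ R, r < i

theorem sum_cyl_insert_le {μ : Finset (Fin n) → ℝ} (hμ : ∀ T, 0 < μ T) (R : Finset (Fin n))
    {I : Finset (Fin n)} (hI : I ⊆ above R) : ∑ i ∈ I, cyl μ (insert i R) ≤ cyl μ R := by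
  classical
  have hmem : ∀ i ∈ I, ∀ r ∈ R, r < i := fun i hi => (mem_filter.1 (hI hi)).2
  unfold cyl
  rw [← sum_biUnion]
  · refine sum_le_sum_of_subset_of_nonneg (fun S hS => ?_) fun S _ _ => (hμ S).le
    simp only [mem_biUnion, mem_filter, mem_univ, true_and] at hS ⊢
    obtain ⟨i, hi, h1, h2⟩ := hS
    refine ⟨(subset_insert _ _).trans h1, fun x hx j hj hxj => ?_⟩
    refine (mem_insert.1 (h2 x hx j (mem_insert_of_mem hj) hxj)).resolve_left fun h => ?_
    exact absurd (hmem i hi j hj) (not_lt.2 (h ▸ hxj))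
  · intro i hi i' hi' hne
    refine disjoint_left.2 fun S hS hS' => hne ?_
    simp only [mem_filter, mem_univ, true_and] at hS hS'
    rcases le_total i i' with h | h
    · refine (mem_insert.1 (hS'.2 i (hS.1 (mem_insert_self _ _)) i' (mem_insert_self _ _) h)
        ).resolve_right fun hr => lt_irrefl i (hmem i hi i hr)
    · exact ((mem_insert.1 (hS.2 i' (hS'.1 (mem_insert_self _ _)) i (mem_insert_self _ _) h)
        ).resolve_right fun hr => lt_irrefl i' (hmem i' hi' i' hr)).symm

theorem sum_two_pow_above (S : Finset (Fin n)) :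
    ∑ i ∈ S, (2 : ℝ) ^ (S.filter (i < ·)).card = 2 ^ S.card - 1 := by
  induction S using Finset.induction_on_min with
  | empty => simp
  | insert a S hmin ih =>
    have hnot : a ∉ S := fun h => lt_irrefl a (hmin a h)
    rw [sum_insert hnot, card_insert_of_notMem hnot, filter_insert, if_neg (lt_irrefl a),
      filter_true_of_mem (fun x hx => hmin x hx),
      sum_congr rfl (fun i hi => by rw [filter_insert, if_neg (not_lt.2 (hmin i hi).le)]), ih]
    ring

/-- The extensions of `R` by at most `k` larger elements. -/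
def ext (R : Finset (Fin n)) (k : ℕ) : Finset (Finset (Fin n)) :=
  univ.filter fun T => IsPre R T ∧ (T \ R).card ≤ k

/-- The step weight. -/
def step (μ : Finset (Fin n) → ℝ) (S0 T : Finset (Fin n)) (i : Fin n) : ℝ :=
  if i ∈ S0 then 1 else Real.exp (-hsur μ T i)

theorem kraft {μ : Finset (Fin n) → ℝ} (hμ : ∀ T, 0 < μ T) (S0 : Finset (Fin n)) :
    ∀ (k : ℕ) (R : Finset (Fin n)), ∑ T ∈ ext R k, ∏ i ∈ T \ R, step μ S0 T i ≤
      (2 : ℝ) ^ (k + (above R ∩ S0).card) := by
  classical
  have hq : ∀ T i, 0 ≤ step μ S0 T i := fun T i => by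
    unfold step; split_ifs
    exacts [zero_le_one, (Real.exp_pos _).le]
  intro k
  induction k with
  | zero =>
    intro R
    have h : ext R 0 = {R} := by
      ext T
      simp only [ext, mem_filter, mem_univ, true_and, mem_singleton, Nat.le_zero, card_eq_zero,
        sdiff_eq_empty_iff_subset]
      exact ⟨fun h => subset_antisymm h.2 h.1.1, fun h => h ▸ ⟨isPre_refl _, subset_rfl⟩⟩
    rw [h, sum_singleton, Finset.sdiff_self, prod_empty]
    exact one_le_pow₀ one_le_two
  | succ k ih =>
    intro R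
    have habove : ∀ i ∈ above R, i ∉ R ∧ (∀ r ∈ R, r < i) := fun i hi =>
      ⟨fun h => lt_irrefl i ((mem_filter.1 hi).2 i h), (mem_filter.1 hi).2⟩
    -- the children
    have hsub : ext R (k + 1) ⊆ {R} ∪ (above R).biUnion fun i => ext (insert i R) k := by
      intro T hT
      simp only [ext, mem_filter, mem_univ, true_and] at hT
      obtain ⟨⟨h1, h2⟩, h3⟩ := hT
      rcases (T \ R).eq_empty_or_nonempty with h | h
      · exact mem_union_left _ (mem_singleton.2
          (subset_antisymm (sdiff_eq_empty_iff_subset.1 h) h1))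
      refine mem_union_right _ (mem_biUnion.2 ⟨(T \ R).min' h, ?_, ?_⟩)
      · refine mem_filter.2 ⟨mem_univ _, fun r hr => ?_⟩
        obtain ⟨hiT, hiR⟩ := mem_sdiff.1 (min'_mem _ h)
        by_contra hle
        exact hiR (h2 _ hiT r hr (not_lt.1 hle))
      · obtain ⟨hiT, hiR⟩ := mem_sdiff.1 (min'_mem _ h)
        simp only [ext, mem_filter, mem_univ, true_and]
        refine ⟨⟨insert_subset hiT h1, fun x hx j hj hxj => ?_⟩, ?_⟩
        · by_cases hxR : x ∈ R
          · exact mem_insert_of_mem hxR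
          rcases mem_insert.1 hj with rfl | hj'
          · rw [le_antisymm hxj (min'_le _ _ (mem_sdiff.2 ⟨hx, hxR⟩))]
            exact mem_insert_self _ _
          · exact absurd (h2 x hx j hj' hxj) hxR
        · rw [sdiff_insert, card_erase_of_mem (min'_mem _ h)]
          omega
    refine (sum_le_sum_of_subset_of_nonneg hsub
      fun T _ _ => prod_nonneg fun i _ => hq T i).trans ?_
    have hdisj : Disjoint {R} ((above R).biUnion fun i => ext (insert i R) k) := by
      rw [disjoint_singleton_left]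
      intro h
      obtain ⟨i, hi, hiT⟩ := mem_biUnion.1 h
      exact (habove i hi).1 ((mem_filter.1 hiT).2.1.1 (mem_insert_self _ _))
    rw [sum_union hdisj, sum_singleton, Finset.sdiff_self, prod_empty]
    have hdisj2 : ((above R : Finset (Fin n)) : Set (Fin n)).PairwiseDisjoint
        fun i => ext (insert i R) k := by
      intro i hi i' hi' hne
      refine disjoint_left.2 fun S hS hS' => hne ?_
      simp only [ext, mem_filter, mem_univ, true_and] at hS hS'
      rcases le_total i i' with h | h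
      · exact (mem_insert.1 (hS'.1.2 i (hS.1.1 (mem_insert_self _ _)) i' (mem_insert_self _ _) h)
          ).resolve_right fun hr => (habove i hi).1 hr
      · exact ((mem_insert.1 (hS.1.2 i' (hS'.1.1 (mem_insert_self _ _)) i (mem_insert_self _ _) h)
          ).resolve_right fun hr => (habove i' hi').1 hr).symm
    rw [sum_biUnion hdisj2]
    set p : Fin n → ℝ := fun i =>
      if i ∈ S0 then 1 else cyl μ (insert i R) / cyl μ R with hp
    have hp0 : ∀ i, 0 ≤ p i := fun i => by
      simp only [hp]
      split_ifs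
      exacts [zero_le_one, div_nonneg (cyl_pos hμ _).le (cyl_pos hμ _).le]
    have hstep : ∀ i ∈ above R, ∑ T ∈ ext (insert i R) k, ∏ j ∈ T \ R, step μ S0 T j ≤
        p i * (2 : ℝ) ^ (k + (above (insert i R) ∩ S0).card) := by
      intro i hi
      refine le_trans (le_of_eq ?_) (mul_le_mul_of_nonneg_left (ih (insert i R)) (hp0 i))
      rw [mul_sum]
      refine sum_congr rfl fun T hT => ?_
      simp only [ext, mem_filter, mem_univ, true_and] at hT
      obtain ⟨⟨h1, h2⟩, -⟩ := hT
      have hiT : i ∈ T \ R := mem_sdiff.2 ⟨h1 (mem_insert_self _ _), (habove i hi).1⟩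
      rw [← mul_prod_erase _ _ hiT, sdiff_insert]
      have e1 : T.filter (· ≤ i) = insert i R := by
        ext x
        simp only [mem_filter]
        refine ⟨fun h => h2 x h.1 i (mem_insert_self _ _) h.2, fun h => ⟨h1 h, ?_⟩⟩
        rcases mem_insert.1 h with rfl | h
        exacts [le_rfl, ((habove i hi).2 x h).le]
      have e2 : T.filter (· < i) = R := by
        ext x
        simp only [mem_filter]
        refine ⟨fun h => ?_, fun h => ⟨h1 (mem_insert_of_mem h), (habove i hi).2 x h⟩⟩
        exact (mem_insert.1 (h2 x h.1 i (mem_insert_self _ _) h.2.le)).resolve_left h.2.ne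
      congr 1
      simp only [step, hp]
      split_ifs
      · rfl
      · rw [hsur, e1, e2, neg_sub, Real.exp_sub, Real.exp_log (cyl_pos hμ _),
          Real.exp_log (cyl_pos hμ _)]
    refine (add_le_add le_rfl (sum_le_sum hstep)).trans ?_
    -- the arithmetic
    set m := (above R ∩ S0).card with hm
    have habove2 : ∀ i ∈ above R, above (insert i R) ∩ S0 = (above R ∩ S0).filter (i < ·) := by
      intro i hi
      ext x
      simp only [above, mem_inter, mem_filter, mem_univ, true_and, forall_mem_insert]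
      tauto
    have h2pos : (0 : ℝ) ≤ 2 ^ k := by positivity
    have hS : ∑ i ∈ above R ∩ S0, p i * (2 : ℝ) ^ (k + (above (insert i R) ∩ S0).card) =
        2 ^ k * (2 ^ m - 1) := by
      rw [hm, ← sum_two_pow_above, mul_sum]
      refine sum_congr rfl fun i hi => ?_
      rw [habove2 i (mem_inter.1 hi).1, pow_add, hp]
      simp only [if_pos (mem_inter.1 hi).2, one_mul]
    have hN : ∑ i ∈ above R \ S0, p i * (2 : ℝ) ^ (k + (above (insert i R) ∩ S0).card) ≤
        2 ^ k * 2 ^ m := by
      calc ∑ i ∈ above R \ S0, p i * (2 : ℝ) ^ (k + (above (insert i R) ∩ S0).card)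
          ≤ ∑ i ∈ above R \ S0, cyl μ (insert i R) / cyl μ R * (2 : ℝ) ^ (k + m) := by
            refine sum_le_sum fun i hi => ?_
            obtain ⟨hiA, hiS⟩ := mem_sdiff.1 hi
            simp only [hp, if_neg hiS]
            refine mul_le_mul_of_nonneg_left (pow_le_pow_right₀ one_le_two ?_)
              (div_nonneg (cyl_pos hμ _).le (cyl_pos hμ _).le)
            rw [habove2 i hiA]
            exact Nat.add_le_add_left (card_le_card (filter_subset _ _)) k
        _ = (∑ i ∈ above R \ S0, cyl μ (insert i R)) / cyl μ R * (2 : ℝ) ^ (k + m) := by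
            rw [← sum_mul, ← sum_div]
        _ ≤ 1 * (2 : ℝ) ^ (k + m) := mul_le_mul_of_nonneg_right
            ((div_le_one (cyl_pos hμ R)).2 (sum_cyl_insert_le hμ R sdiff_subset)) (by positivity)
        _ = _ := by rw [one_mul, pow_add]
    have hsplit := sum_inter_add_sum_sdiff (above R) S0
      fun i => p i * (2 : ℝ) ^ (k + (above (insert i R) ∩ S0).card)
    rw [← hsplit, hS, show k + 1 + m = k + m + 1 by ring, pow_succ, pow_add]
    nlinarith [one_le_pow₀ (one_le_two (α := ℝ)) (n := k)]

/-- Few sets have small surprisal outside `S0`. -/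
theorem card_small_surprisal {μ : Finset (Fin n) → ℝ} (hμ : ∀ T, 0 < μ T) (S0 : Finset (Fin n))
    (k : ℕ) (E : ℝ) (𝒯 : Finset (Finset (Fin n)))
    (h : ∀ T ∈ 𝒯, T.card ≤ k ∧ ∑ i ∈ T \ S0, hsur μ T i ≤ E) :
    (𝒯.card : ℝ) ≤ (2 : ℝ) ^ (k + S0.card) * Real.exp E := by
  classical
  have hk := kraft hμ S0 k ∅
  have hexp : ∀ T ∈ 𝒯, 1 ≤ Real.exp E * ∏ i ∈ T \ ∅, step μ S0 T i := by
    intro T hT
    have e : ∏ i ∈ T \ ∅, step μ S0 T i = Real.exp (-∑ i ∈ T \ S0, hsur μ T i) := by
      rw [sdiff_empty, ← sum_neg_distrib, Real.exp_sum, sdiff_eq_filter, prod_filter]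
      refine prod_congr rfl fun i _ => ?_
      unfold step
      split_ifs <;> rfl
    rw [e, ← Real.exp_add, Real.one_le_exp_iff]
    linarith [(h T hT).2]
  have hsub : 𝒯 ⊆ ext ∅ k := fun T hT => mem_filter.2
    ⟨mem_univ _, ⟨empty_subset _, fun _ _ j hj => absurd hj (notMem_empty j)⟩,
      by simpa using (h T hT).1⟩
  calc (𝒯.card : ℝ) = ∑ _T ∈ 𝒯, (1 : ℝ) := by simp
    _ ≤ ∑ T ∈ 𝒯, Real.exp E * ∏ i ∈ T \ ∅, step μ S0 T i := sum_le_sum hexp
    _ = Real.exp E * ∑ T ∈ 𝒯, ∏ i ∈ T \ ∅, step μ S0 T i := by rw [mul_sum]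
    _ ≤ Real.exp E * (2 : ℝ) ^ (k + (above ∅ ∩ S0).card) := by
        refine mul_le_mul_of_nonneg_left (le_trans ?_ hk) (Real.exp_pos _).le
        refine sum_le_sum_of_subset_of_nonneg hsub fun T _ _ => prod_nonneg fun i _ => ?_
        unfold step; split_ifs
        exacts [zero_le_one, (Real.exp_pos _).le]
    _ ≤ _ := by
        rw [mul_comm]
        refine mul_le_mul_of_nonneg_right (pow_le_pow_right₀ one_le_two ?_) (Real.exp_pos _).le
        exact Nat.add_le_add_left (card_le_card inter_subset_right) k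

end Vale.Agent.P126.Uncond

end
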