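import Mathlib
import Vale.Agent.P126.Uncond.Pieces
import Vale.Agent.P126.Uncond.Tree

/-!
# Entropy duality with absolute constants for unconditional bodies

Each separated point carries a random set of its large coordinates. The surprisals of these sets
are the weights of self-consistent log-maximiser boxes of `L`, which give one test vector in the
polar of `L` per point. Test vectors in one cell of a cover by translates of the polar of `K`
belong to few sets, and each set belongs to few separated points.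
-/

noncomputable section

open Finset
open scoped BigOperators Pointwise

namespace Vale.Agent.P126.Uncond

variable {n : ℕ}

/-- The law of independent coins, on subsets. -/
def coinLaw (θ : Fin n → ℝ) (T : Finset (Fin n)) : ℝ := ∏ i, if i ∈ T then θ i else 1 - θ i

theorem coinLaw_nonneg {θ : Fin n → ℝ} (h0 : ∀ i, 0 ≤ θ i) (h1 : ∀ i, θ i ≤ 1)
    (T : Finset (Fin n)) : 0 ≤ coinLaw θ T :=
  prod_nonneg fun i _ => by split_ifs <;> linarith [h0 i, h1 i]

theorem sum_coinLaw (θ : Fin n → ℝ) : ∑ T, coinLaw θ T = 1 := by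
  classical
  have h := prod_add θ (fun i => 1 - θ i) univ
  simp only [add_sub_cancel, prod_const_one, powerset_univ] at h
  rw [h]
  refine sum_congr rfl fun T _ => ?_
  rw [coinLaw, prod_ite]
  congr 2 <;> ext i <;> simp

theorem coinLaw_eq_zero {θ : Fin n → ℝ} {T : Finset (Fin n)} {i : Fin n}
    (h : (i ∈ T ∧ θ i = 0) ∨ (i ∉ T ∧ θ i = 1)) : coinLaw θ T = 0 := by
  refine prod_eq_zero (mem_univ i) ?_
  rcases h with ⟨h1, h2⟩ | ⟨h1, h2⟩
  · rw [if_pos h1, h2]
  · rw [if_neg h1, h2, sub_self]

/-- Mean surprisal of coins supported on `U`, for a mixture containing their law. -/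
theorem mean_hsur_le {μ : Finset (Fin n) → ℝ} (hμ : ∀ T, 0 < μ T) (htot : ∑ T, μ T = 2)
    {θ : Fin n → ℝ} (h0 : ∀ i, 0 ≤ θ i) (h1 : ∀ i, θ i ≤ 1) {U : Finset (Fin n)}
    (hU : ∀ i ∉ U, θ i = 0) {N : ℝ} (hN : 0 < N) (hdom : ∀ T, coinLaw θ T / N ≤ μ T) :
    ∑ T, coinLaw θ T * ∑ i ∈ T, hsur μ T i ≤
      Real.log 2 + Real.log N + U.card * Real.log 2 := by
  classical
  set q : ℝ := ((2 : ℝ) ^ U.card)⁻¹ with hq
  have hq0 : 0 < q := by positivity
  have hterm : ∀ T, coinLaw θ T * ∑ i ∈ T, hsur μ T i ≤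
      coinLaw θ T * (Real.log 2 + Real.log N + U.card * Real.log 2 - 1) +
        if T ⊆ U then q else 0 := by
    intro T
    rcases (coinLaw_nonneg h0 h1 T).eq_or_lt with h | hpos
    · rw [← h, zero_mul, zero_mul, zero_add]
      split_ifs <;> linarith
    have hTU : T ⊆ U := fun i hi => by
      by_contra hiU
      exact hpos.ne' (coinLaw_eq_zero (Or.inl ⟨hi, hU i hiU⟩))
    rw [if_pos hTU, sum_hsur, cyl_empty, htot]
    have h2 : Real.log (coinLaw θ T) - Real.log N ≤ Real.log (cyl μ T) := by
      rw [← Real.log_div hpos.ne' hN.ne']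
      exact Real.log_le_log (by positivity) ((hdom T).trans (le_cyl hμ T))
    have h3 := Real.log_le_sub_one_of_pos (div_pos hq0 hpos)
    rw [Real.log_div hq0.ne' hpos.ne', hq, Real.log_inv, Real.log_pow, ← hq] at h3
    have h4 : coinLaw θ T * (q / coinLaw θ T) = q := by field_simp
    nlinarith [mul_le_mul_of_nonneg_left h2 hpos.le, mul_le_mul_of_nonneg_left h3 hpos.le]
  refine (sum_le_sum fun T _ => hterm T).trans ?_
  have hfil : univ.filter (fun T : Finset (Fin n) => T ⊆ U) = U.powerset := by ext; simp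
  rw [sum_add_distrib, ← sum_mul, sum_coinLaw, one_mul, ← sum_filter, hfil, sum_const,
    card_powerset, nsmul_eq_mul, Nat.cast_pow, Nat.cast_ofNat, hq,
    mul_inv_cancel₀ (by positivity)]
  linarith

/-- Separated sets of `K` are controlled by the dual entropy. -/
theorem sep_bound {K L : Set (Fin n → ℝ)} (hK : IsBody K) (hsK : IsSolid K)
    (hL : IsBody L) (hsL : IsSolid L) (S : Finset (Fin n → ℝ)) (hSK : ∀ s ∈ S, s ∈ K)
    (hsep : ∀ s ∈ S, ∀ t ∈ S, s ≠ t → s - t ∉ (385 : ℝ) • L) :
    Real.log S.card ≤ 120 * dualEnt K L := by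
  classical
  set P := dualEnt K L with hPdef
  have hP : 0 ≤ P := dualEnt_nonneg K L
  rcases Nat.lt_or_ge S.card 2 with hlt | hge
  · have : Real.log (S.card : ℝ) = 0 := by interval_cases S.card <;> simp
    rw [this]; linarith
  set x : ↥S → Fin n → ℝ := fun a => a.1 with hx
  have hxK : ∀ a, x a ∈ K := fun a => hSK a.1 a.2
  choose g0 hg0L hg0pos hg0 using fun a => exists_few_large hK hsK hL hsL (hxK a)
  set U : ↥S → Finset (Fin n) := fun a => univ.filter fun i => 48 * g0 a i < |x a i| with hU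
  have hUcard : ∀ a, ((U a).card : ℝ) ≤ 12 * P := hg0
  set N : ℝ := (S.card : ℝ) with hN
  have hN2 : (2 : ℝ) ≤ N := by rw [hN]; exact_mod_cast hge
  have hNpos : 0 < N := by linarith
  set h := Real.log N with hh
  have hh2 : Real.log 2 ≤ h := Real.log_le_log (by norm_num) hN2
  have hlog2 : 0 < Real.log 2 := Real.log_pos one_lt_two
  set D := Real.log 2 + h + 12 * P with hD
  have hDpos : 0 < D := by linarith
  -- self-consistent weights
  set Θ : (↥S → Fin n → ℝ) → ↥S → Fin n → ℝ :=
    fun l a i => clamp01 (|x a i| / (48 * (g0 a i + l a i)) - 1) with hΘ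
  set mu : (↥S → Fin n → ℝ) → Finset (Fin n) → ℝ :=
    fun l T => (∑ a, coinLaw (Θ l a) T) / N + 1 / 2 ^ n with hmu
  have hΘ0 : ∀ l a i, 0 ≤ Θ l a i := fun l a i => clamp01_nonneg _
  have hΘ1 : ∀ l a i, Θ l a i ≤ 1 := fun l a i => clamp01_le_one _
  have hπ : ∀ l a T, 0 ≤ coinLaw (Θ l a) T := fun l a T => coinLaw_nonneg (hΘ0 l a) (hΘ1 l a) T
  have hmupos : ∀ l T, 0 < mu l T := fun l T =>
    add_pos_of_nonneg_of_pos (div_nonneg (sum_nonneg fun a _ => hπ l a T) hNpos.le) (by positivity)
  set W : (↥S → Fin n → ℝ) → ↥S → Fin n → ℝ := fun l a i =>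
    (∑ T, if i ∈ T then coinLaw (Θ l a) T * hsur (mu l) T i else 0) / D with hW
  have hΘc : ∀ a i, ContinuousOn (fun l => Θ l a i) {l | ∀ a i, 0 < l a i} := fun a i => by
    refine continuous_clamp01.comp_continuousOn ((continuousOn_const.div
      (continuousOn_const.mul (continuousOn_const.add ?_)) ?_).sub continuousOn_const)
    · exact ((continuous_apply i).comp (continuous_apply a)).continuousOn
    · exact fun l hl => (mul_pos (by norm_num) (add_pos (hg0pos a i) (hl a i))).ne'
  have hπc : ∀ a T, ContinuousOn (fun l => coinLaw (Θ l a) T) {l | ∀ a i, 0 < l a i} :=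
    fun a T => continuousOn_finsetProd _ fun i _ => by
      by_cases hi : i ∈ T
      · simp only [if_pos hi]; exact hΘc a i
      · simp only [if_neg hi]; exact continuousOn_const.sub (hΘc a i)
  have hmuc : ∀ T, ContinuousOn (fun l => mu l T) {l | ∀ a i, 0 < l a i} := fun T =>
    ((continuousOn_finsetSum _ fun a _ => hπc a T).div_const _).add continuousOn_const
  have hhc : ∀ T i, ContinuousOn (fun l => hsur (mu l) T i) {l | ∀ a i, 0 < l a i} := fun T i =>
    ((continuousOn_finsetSum _ fun R _ => hmuc R).log fun l _ => (cyl_pos (hmupos l) _).ne').sub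
      ((continuousOn_finsetSum _ fun R _ => hmuc R).log fun l _ => (cyl_pos (hmupos l) _).ne')
  have hWc : ∀ a i, ContinuousOn (fun l => W l a i) {l | ∀ a i, 0 < l a i} := fun a i =>
    (continuousOn_finsetSum _ fun T _ => by
      by_cases hi : i ∈ T
      · simp only [if_pos hi]; exact (hπc a T).mul (hhc T i)
      · simp only [if_neg hi]; exact continuousOn_const).div_const _
  have hW0 : ∀ l : ↥S → Fin n → ℝ, (∀ a i, 0 < l a i) → ∀ a i, 0 ≤ W l a i := fun l _ a i =>
    div_nonneg (sum_nonneg fun T _ => by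
      split_ifs
      exacts [mul_nonneg (hπ l a T) (hsur_nonneg (hmupos l) T i), le_rfl]) hDpos.le
  obtain ⟨l, hl, hbox⟩ := exists_box hL hsL W hWc hW0
  set θ := Θ l with hθ
  set μ := mu l with hμ
  have hμpos : ∀ T, 0 < μ T := hmupos l
  have hμtot : ∑ T, μ T = 2 := by
    simp only [hμ, hmu]
    rw [sum_add_distrib, ← sum_div, sum_comm, sum_congr rfl fun a _ => sum_coinLaw (Θ l a)]
    simp only [sum_const, card_univ, Fintype.card_coe, nsmul_eq_mul, mul_one,
      Fintype.card_finset, Fintype.card_fin, Nat.cast_pow, Nat.cast_ofNat]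
    rw [div_self hNpos.ne', mul_one_div, div_self (by positivity)]
    norm_num
  have hθU : ∀ a, ∀ i ∉ U a, θ a i = 0 := fun a i hi => by
    have h1 : |x a i| ≤ 48 * g0 a i := by simpa [hU] using hi
    refine le_antisymm (not_lt.1 fun hpos => ?_) (hΘ0 l a i)
    have hp : 0 < |x a i| / (48 * (g0 a i + l a i)) - 1 := clamp01_pos_iff.1 hpos
    have := hg0pos a i
    have := (hl a).2 i
    rw [sub_pos, one_lt_div (by positivity)] at hp
    linarith
  have hWsum : ∀ a, ∑ i, W l a i = (∑ T, coinLaw (θ a) T * ∑ i ∈ T, hsur μ T i) / D := fun a => by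
    simp only [hW]
    rw [← sum_div, sum_comm]
    congr 1
    refine sum_congr rfl fun T _ => ?_
    rw [mul_sum, sum_ite_mem, univ_inter]
  have hWle : ∀ a, ∑ i, W l a i ≤ 1 := fun a => by
    rw [hWsum a, div_le_one hDpos]
    refine (mean_hsur_le hμpos hμtot (hΘ0 l a) (hΘ1 l a) (hθU a) hNpos fun T => ?_).trans ?_
    · refine le_add_of_le_of_nonneg (div_le_div_of_nonneg_right ?_ hNpos.le) (by positivity)
      exact single_le_sum (fun b _ => hπ l b T) (mem_univ a)
    · have hl2 : Real.log 2 ≤ 1 := by linarith [Real.log_le_sub_one_of_pos (two_pos (α := ℝ))]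
      nlinarith [hUcard a, (U a).card.cast_nonneg (α := ℝ)]
  have hW00 : ∀ a i, 0 ≤ W l a i := hW0 l fun a => (hl a).2
  have hWzero : ∀ a i, θ a i = 0 → W l a i = 0 := fun a i hi => by
    simp only [hW]
    rw [sum_eq_zero, zero_div]
    intro T _
    split_ifs with hiT
    · rw [coinLaw_eq_zero (Or.inl ⟨hiT, hi⟩), zero_mul]
    · rfl
  -- test vectors and cells
  set u : ↥S → Fin n → ℝ := fun a i => W l a i / l a i / 2 with hu
  have hu0 : ∀ a i, 0 ≤ u a i := fun a i =>
    div_nonneg (div_nonneg (hW00 a i) ((hl a).2 i).le) zero_le_two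
  have huL : ∀ a, u a ∈ polar L := fun a => mem_polar_of_sum fun z hz => by
    have h1 := hbox a z hz
    rw [sum_congr rfl fun i _ => show |u a i| * |z i| = W l a i / l a i * |z i| / 2 by
      rw [abs_of_nonneg (hu0 a i)]; simp only [hu]; ring, ← sum_div]
    linarith [hWle a]
  obtain ⟨c, hc⟩ := coveredBy_covNum (isBody_polar hL).2.1 (isBody_polar hK).2.2.1
  have hcell : ∀ a, ∃ j, ∃ y ∈ polar K, c j + y = u a := fun a => by
    obtain ⟨j, hj⟩ := Set.mem_iUnion.1 (hc (huL a))
    exact ⟨j, hj⟩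
  choose jc yc hyc hjy using hcell
  -- the ball estimate
  have hball : ∀ a b, jc a = jc b → ∑ i ∈ (U b)ᶜ, W l a i ≤ 1 / 12 := by
    intro a b hab
    have hdiff : ∀ i, u a i - u b i = yc a i - yc b i := fun i => by
      rw [← hjy a, ← hjy b, hab]; simp
    have h2 : ∑ i, |x a i| * |u a i - u b i| ≤ 2 := by
      refine (sum_le_sum fun i _ => ?_).trans
        ((sum_add_distrib (s := univ) (f := fun i => |x a i| * |yc a i|)
          (g := fun i => |x a i| * |yc b i|)).le.trans (by
          linarith [sum_abs_mul_le hsK (hxK a) (hyc a), sum_abs_mul_le hsK (hxK a) (hyc b)]))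
      rw [hdiff, ← mul_add]
      exact mul_le_mul_of_nonneg_left (abs_sub _ _) (abs_nonneg _)
    have h3 : ∑ i ∈ (U b)ᶜ, 24 * W l a i ≤ 2 := by
      refine le_trans (sum_le_sum fun i hi => ?_)
        ((sum_le_univ_sum_of_nonneg fun i => mul_nonneg (abs_nonneg _) (abs_nonneg _)).trans h2)
      have hub : u b i = 0 := by
        simp only [hu]
        rw [hWzero b i (hθU b i (mem_compl.1 hi))]
        simp
      rw [hub, sub_zero, abs_of_nonneg (hu0 a i)]
      rcases (hΘ0 l a i).eq_or_lt with h0 | hpos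
      · rw [hWzero a i h0.symm, mul_zero]
        exact mul_nonneg (abs_nonneg _) (hu0 a i)
      · have hp : 0 < |x a i| / (48 * (g0 a i + l a i)) - 1 := clamp01_pos_iff.1 hpos
        have hl' := (hl a).2 i
        have hg' := hg0pos a i
        rw [sub_pos, one_lt_div (by positivity)] at hp
        have hbig : 48 * l a i ≤ |x a i| := by linarith
        have hWl : 0 ≤ W l a i / l a i := div_nonneg (hW00 a i) hl'.le
        calc 24 * W l a i = 48 * l a i * (W l a i / l a i / 2) := by field_simp; ring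
          _ ≤ |x a i| * u a i := mul_le_mul_of_nonneg_right hbig (hu0 a i)
    rw [← mul_sum] at h3
    linarith
  -- a good set for each point
  set U0 : Fin (covNum (polar L) (polar K)) → Finset (Fin n) :=
    fun j => if hj : ∃ b, jc b = j then U (Classical.choose hj) else ∅ with hU0
  have hU0card : ∀ j, ((U0 j).card : ℝ) ≤ 12 * P := fun j => by
    simp only [hU0]
    split_ifs with hj
    · exact hUcard _
    · rw [card_empty, Nat.cast_zero]; linarith
  have hT : ∀ a, ∃ T : Finset (Fin n), 0 < coinLaw (θ a) T ∧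
      ∑ i ∈ T \ U0 (jc a), hsur μ T i ≤ D / 12 := by
    intro a
    have hex : ∃ b, jc b = jc a := ⟨a, rfl⟩
    have hb := hball a (Classical.choose hex) (Classical.choose_spec hex).symm
    have hU0a : U0 (jc a) = U (Classical.choose hex) := by simp only [hU0, dif_pos hex]
    rw [← hU0a] at hb
    have hmean : ∑ T, coinLaw (θ a) T * ∑ i ∈ T \ U0 (jc a), hsur μ T i ≤ D / 12 := by
      have e : ∑ i ∈ (U0 (jc a))ᶜ, W l a i =
          (∑ T, coinLaw (θ a) T * ∑ i ∈ T \ U0 (jc a), hsur μ T i) / D := by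
        simp only [hW]
        rw [← sum_div, sum_comm]
        congr 1
        refine sum_congr rfl fun T _ => ?_
        rw [mul_sum, sum_ite_mem, inter_comm, ← sdiff_eq_inter_compl]
      rw [e, div_le_iff₀ hDpos] at hb
      linarith
    by_contra hno
    push Not at hno
    have hlt : ∑ T, coinLaw (θ a) T * (D / 12) <
        ∑ T, coinLaw (θ a) T * ∑ i ∈ T \ U0 (jc a), hsur μ T i := by
      refine sum_lt_sum (fun T _ => ?_) ?_
      · rcases (hπ l a T).eq_or_lt with h | h
        · rw [show coinLaw (θ a) T = 0 from h.symm, zero_mul, zero_mul]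
        · exact mul_le_mul_of_nonneg_left (hno T h).le h.le
      · obtain ⟨T, hTm, hTne⟩ := exists_ne_zero_of_sum_ne_zero
          (show ∑ T, coinLaw (θ a) T ≠ 0 by rw [sum_coinLaw]; exact one_ne_zero)
        have hpos : 0 < coinLaw (θ a) T := lt_of_le_of_ne (hπ l a T) (Ne.symm hTne)
        exact ⟨T, hTm, mul_lt_mul_of_pos_left (hno T hpos) hpos⟩
    rw [← sum_mul, sum_coinLaw, one_mul] at hlt
    linarith
  choose Tc hTpos hTsur using hT
  have hTU : ∀ a, Tc a ⊆ U a := fun a i hi => by
    by_contra hiU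
    exact (hTpos a).ne' (coinLaw_eq_zero (Or.inl ⟨hi, hθU a i hiU⟩))
  have hTcard : ∀ a, ((Tc a).card : ℝ) ≤ 12 * P := fun a =>
    le_trans (Nat.cast_le.2 (card_le_card (hTU a))) (hUcard a)
  -- codes
  choose gT Q hgL hgpos hQcard hQmem using fun T => exists_code hK hsK hL hsL T
  set F : ↥S → Fin (covNum (polar L) (polar K)) ×
      (Finset (Fin n) × (Finset (Fin n) × (Fin n → ℕ))) := fun a =>
    (jc a, (Tc a, ((Tc a).filter fun i => x a i < 0,
      fun i => if i ∈ Tc a then ⌊|x a i| / gT (Tc a) i⌋₊ else 0))) with hF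
  set 𝒯 : Fin (covNum (polar L) (polar K)) → Finset (Finset (Fin n)) :=
    fun j => (univ.filter fun a => jc a = j).image Tc with h𝒯
  set tgt : Finset (Fin (covNum (polar L) (polar K)) ×
      (Finset (Fin n) × (Finset (Fin n) × (Fin n → ℕ)))) :=
    univ.biUnion fun j => {j} ×ˢ (𝒯 j).biUnion fun T => {T} ×ˢ Q T with htgt
  have hmaps : ∀ a, F a ∈ tgt := fun a => by
    simp only [htgt, mem_biUnion, mem_product, mem_singleton, hF]
    exact ⟨jc a, mem_univ _, rfl, Tc a,
      mem_image.2 ⟨a, mem_filter.2 ⟨mem_univ _, rfl⟩, rfl⟩, rfl, hQmem _ _ (hxK a)⟩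
  have hinj : Function.Injective F := by
    intro a b hab
    simp only [hF, Prod.mk.injEq] at hab
    obtain ⟨-, hTT, hsign, hflo⟩ := hab
    by_contra hne
    refine hsep a.1 a.2 b.1 b.2 (fun h => hne (Subtype.ext h)) ?_
    have hbig : ∀ a, ∀ i ∉ Tc a, |x a i| ≤ 96 * (g0 a i + l a i) := fun a i hi => by
      have hne1 : θ a i ≠ 1 := fun h1 => (hTpos a).ne' (coinLaw_eq_zero (Or.inr ⟨hi, h1⟩))
      by_contra hlt
      rw [not_le] at hlt
      refine hne1 (clamp01_eq_one ?_)
      have := hg0pos a i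
      have := (hl a).2 i
      rw [le_sub_iff_add_le, le_div_iff₀ (by positivity)]
      linarith
    set T := Tc a with hTdef
    rw [← hTT] at hsign hflo
    set p : Fin n → ℝ := fun i => if i ∈ T then 0 else (x a i - x b i) / 384 with hp
    set q : Fin n → ℝ := fun i => if i ∈ T then x a i - x b i else 0 with hq
    have hpL : p ∈ L := by
      set A : Fin n → ℝ := (1 / 2 : ℝ) • g0 a + (1 / 2 : ℝ) • l a
      set B : Fin n → ℝ := (1 / 2 : ℝ) • g0 b + (1 / 2 : ℝ) • l b
      have hLc : Convex ℝ L := hL.1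
      have hAB : (1 / 2 : ℝ) • A + (1 / 2 : ℝ) • B ∈ L :=
        hLc (hLc (hg0L a) (hl a).1 (by norm_num) (by norm_num) (by norm_num))
          (hLc (hg0L b) (hl b).1 (by norm_num) (by norm_num) (by norm_num))
          (by norm_num) (by norm_num) (by norm_num)
      refine hsL _ hAB _ fun i => le_trans ?_ (le_abs_self _)
      simp only [hp, A, B, Pi.add_apply, Pi.smul_apply, smul_eq_mul]
      have h1 := hg0pos a i
      have h2 := (hl a).2 i
      have h3 := hg0pos b i
      have h4 := (hl b).2 i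
      split_ifs with hi
      · rw [abs_zero]; linarith
      · rw [abs_div, abs_of_pos (by norm_num : (0 : ℝ) < 384), div_le_iff₀ (by norm_num)]
        have := abs_sub (x a i) (x b i)
        linarith [hbig a i hi, hbig b i (hTT ▸ hi)]
    have hqL : q ∈ L := by
      refine hsL _ (hgL T) _ fun i => le_trans ?_ (le_abs_self _)
      simp only [hq]
      split_ifs with hi
      · have hg := hgpos T i
        have e1 : ⌊|x a i| / gT T i⌋₊ = ⌊|x b i| / gT T i⌋₊ := by
          have := congrFun hflo i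
          simpa [hi] using this
        have e2 : (x a i < 0) ↔ (x b i < 0) := by
          have := Finset.ext_iff.1 hsign i
          simpa [hi] using this
        have hlt : |(|x a i| - |x b i|)| < gT T i := by
          have a1 := Nat.floor_le (show 0 ≤ |x a i| / gT T i by positivity)
          have a2 := Nat.lt_floor_add_one (|x a i| / gT T i)
          have b1 := Nat.floor_le (show 0 ≤ |x b i| / gT T i by positivity)
          have b2 := Nat.lt_floor_add_one (|x b i| / gT T i)
          rw [e1] at a1 a2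
          rw [le_div_iff₀ hg] at a1 b1
          rw [div_lt_iff₀ hg] at a2 b2
          rw [abs_lt]; constructor <;> linarith
        by_cases hs : x a i < 0
        · rw [abs_of_neg hs, abs_of_neg (e2.1 hs), ← abs_neg] at hlt
          rw [show x a i - x b i = -(-x a i - -x b i) by ring]
          exact hlt.le
        · rw [abs_of_nonneg (not_lt.1 hs), abs_of_nonneg (not_lt.1 fun h => hs (e2.2 h))] at hlt
          exact hlt.le
      · rw [abs_zero]; exact (hgpos T i).le
    have hLc : Convex ℝ L := hL.1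
    refine Set.mem_smul_set.2 ⟨(384 / 385 : ℝ) • p + (1 / 385 : ℝ) • q,
      hLc hpL hqL (by norm_num) (by norm_num) (by norm_num), ?_⟩
    funext i
    show (385 : ℝ) * ((384 / 385) * p i + (1 / 385) * q i) = x a i - x b i
    simp only [hp, hq]
    split_ifs <;> ring
  -- counting
  set k := ⌊12 * P⌋₊ with hk
  have hk' : (k : ℝ) ≤ 12 * P := Nat.floor_le (by linarith)
  have h𝒯card : ∀ j, ((𝒯 j).card : ℝ) ≤ Real.exp (24 * P + D / 12) := fun j => by
    refine (card_small_surprisal hμpos (U0 j) k (D / 12) (𝒯 j) fun T hT => ?_).trans ?_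
    · obtain ⟨a, ha, rfl⟩ := mem_image.1 hT
      rw [← (mem_filter.1 ha).2]
      exact ⟨Nat.le_floor (hTcard a), hTsur a⟩
    · rw [Real.exp_add]
      refine mul_le_mul_of_nonneg_right ?_ (Real.exp_pos _).le
      have : ((2 : ℝ)) ^ (k + (U0 j).card) ≤ Real.exp 1 ^ (k + (U0 j).card) :=
        pow_le_pow_left₀ zero_le_two (by linarith [Real.exp_one_gt_d9]) _
      refine this.trans ?_
      rw [← Real.exp_nat_mul]
      refine Real.exp_le_exp.2 ?_
      push_cast
      linarith [hU0card j]
  have hQbound : ∀ a, ((Q (Tc a)).card : ℝ) ≤ Real.exp (73 * P) := fun a =>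
    (hQcard _).trans (Real.exp_le_exp.2 (by linarith [hTcard a]))
  have hbiT : ∀ j, (((𝒯 j).biUnion fun T => {T} ×ˢ Q T).card : ℝ) ≤
      Real.exp (24 * P + D / 12) * Real.exp (73 * P) := fun j => by
    refine le_trans (Nat.cast_le.2 card_biUnion_le) ?_
    rw [Nat.cast_sum]
    refine (sum_le_card_nsmul _ _ (Real.exp (73 * P)) fun T hT => ?_).trans ?_
    · obtain ⟨a, -, rfl⟩ := mem_image.1 hT
      rw [card_product, card_singleton, one_mul]
      exact hQbound a
    · rw [nsmul_eq_mul]
      exact mul_le_mul_of_nonneg_right (h𝒯card j) (Real.exp_pos _).le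
  have hN' : (S.card : ℝ) ≤ Real.exp P * (Real.exp (24 * P + D / 12) * Real.exp (73 * P)) := by
    have hc1 : S.card ≤ tgt.card := by
      rw [← Fintype.card_coe S, ← card_univ]
      exact card_le_card_of_injOn F (fun a _ => hmaps a) hinj.injOn
    refine le_trans (Nat.cast_le.2 (hc1.trans card_biUnion_le)) ?_
    rw [Nat.cast_sum]
    refine (sum_le_card_nsmul _ _ (Real.exp (24 * P + D / 12) * Real.exp (73 * P))
      fun j _ => ?_).trans ?_
    · rw [card_product, card_singleton, one_mul]
      exact hbiT j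
    · rw [hPdef, exp_dualEnt hK hL, nsmul_eq_mul, card_univ, Fintype.card_fin]
  have hfin : h ≤ P + (24 * P + D / 12 + 73 * P) := by
    rw [hh, Real.log_le_iff_le_exp hNpos, Real.exp_add, Real.exp_add (24 * P + D / 12)]
    exact hN'
  linarith

/-- One direction of entropy duality for solid bodies. -/
theorem uncond_bound {K L : Set (Fin n → ℝ)} (hK : IsBody K) (hsK : IsSolid K)
    (hL : IsBody L) (hsL : IsSolid L) :
    Real.log (covNum K ((385 : ℝ) • L)) ≤ 120 * dualEnt K L := by
  classical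
  have hzero : ∀ x : Fin n → ℝ, x - x ∈ (385 : ℝ) • L := fun x =>
    ⟨0, hL.zero_mem, by simp⟩
  have hsymm : ∀ x y : Fin n → ℝ, x - y ∈ (385 : ℝ) • L → y - x ∈ (385 : ℝ) • L := by
    rintro x y ⟨z, hz, hzxy⟩
    refine ⟨-z, hL.2.2.2 z hz, ?_⟩
    simp only at hzxy ⊢
    rw [smul_neg, hzxy, neg_sub]
  obtain ⟨T, hTK, hTsep, hTnet, -⟩ := exists_max_sep K (fun x y => x - y ∈ (385 : ℝ) • L)
    (fun x _ => hzero x) ⌊Real.exp (120 * dualEnt K L)⌋₊
    (fun S hS hsep => by
      refine Nat.le_floor ?_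
      rcases Nat.eq_zero_or_pos S.card with h0 | hpos
      · rw [h0, Nat.cast_zero]; exact (Real.exp_pos _).le
      · exact (Real.log_le_iff_le_exp (Nat.cast_pos.2 hpos)).1
          (sep_bound hK hsK hL hsL S hS hsep))
    (fun x _ y _ => hsymm x y)
  have hT := sep_bound hK hsK hL hsL T hTK hTsep
  refine le_trans ?_ hT
  rcases Nat.eq_zero_or_pos (covNum K ((385 : ℝ) • L)) with h0 | hpos
  · rw [h0, Nat.cast_zero, Real.log_zero]; exact Real.log_natCast_nonneg _
  · exact Real.log_le_log (Nat.cast_pos.2 hpos) (Nat.cast_le.2 (covNum_le_card T hTnet))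

end Vale.Agent.P126.Uncond

end
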