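import Mathlib
import Vale.Agent.P126.Uncond.Main

/-!
# Both inequalities of entropy duality, for bodies unconditional in a common basis
-/

noncomputable section

open Finset
open scoped BigOperators Pointwise

namespace Vale.Agent.P126.Uncond

variable {n : ℕ}

theorem coveredBy_image (T : (Fin n → ℝ) ≃ₗ[ℝ] (Fin n → ℝ)) {A B : Set (Fin n → ℝ)} {N : ℕ}
    (h : CoveredBy A B N) : CoveredBy (T '' A) (T '' B) N := by
  obtain ⟨v, hv⟩ := h
  refine ⟨fun i => T (v i), ?_⟩
  rintro _ ⟨a, ha, rfl⟩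
  obtain ⟨i, b, hb, hab⟩ := Set.mem_iUnion.1 (hv ha)
  exact Set.mem_iUnion.2 ⟨i, T b, ⟨b, hb, rfl⟩, by simp only [← map_add]; rw [← hab]⟩

theorem covNum_image (T : (Fin n → ℝ) ≃ₗ[ℝ] (Fin n → ℝ)) (A B : Set (Fin n → ℝ)) :
    covNum (T '' A) (T '' B) = covNum A B := by
  unfold covNum
  congr 1
  ext N
  refine ⟨fun h => ?_, coveredBy_image T⟩
  have := coveredBy_image T.symm h
  simpa [Set.image_image] using this

theorem covNum_smul_right (A B : Set (Fin n → ℝ)) {t : ℝ} (ht : t ≠ 0) :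
    covNum (t • A) B = covNum A (t⁻¹ • B) := by
  have h := covNum_image (LinearEquiv.smulOfNeZero ℝ (Fin n → ℝ) t ht) A (t⁻¹ • B)
  have e : ∀ C : Set (Fin n → ℝ),
      (LinearEquiv.smulOfNeZero ℝ (Fin n → ℝ) t ht) '' C = t • C := fun C => by
    ext w; simp [Set.mem_smul_set]
  rw [e, e, smul_inv_smul₀ ht] at h
  exact h

theorem isBody_smul {L : Set (Fin n → ℝ)} (hL : IsBody L) {t : ℝ} (ht : t ≠ 0) :
    IsBody (t • L) := by
  refine ⟨hL.1.smul t, hL.2.1.smul t, smul_interior_nonempty hL.2.2.1 ht, ?_⟩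
  rintro _ ⟨x, hx, rfl⟩
  exact ⟨-x, hL.2.2.2 x hx, smul_neg t x⟩

theorem isUncond_smul {L : Set (Fin n → ℝ)} (hL : IsUncond L) {t : ℝ} (ht : t ≠ 0) :
    IsUncond (t • L) := by
  rintro _ ⟨x, hx, rfl⟩ y hy
  refine ⟨t⁻¹ • y, hL x hx _ fun i => ?_, smul_inv_smul₀ ht y⟩
  have := hy i
  simp only [Pi.smul_apply, smul_eq_mul, abs_mul] at this ⊢
  rw [this, abs_inv, inv_mul_cancel_left₀ (abs_ne_zero.2 ht)]

theorem polar_smul (L : Set (Fin n → ℝ)) {t : ℝ} (ht : t ≠ 0) :
    polar (t • L) = t⁻¹ • polar L := by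
  ext y
  rw [Set.mem_smul_set_iff_inv_smul_mem₀ (inv_ne_zero ht), inv_inv]
  constructor
  · intro h x hx
    have := h _ (Set.smul_mem_smul_set (a := t) hx)
    rwa [smul_dotProduct, ← dotProduct_smul] at this
  · rintro h _ ⟨x, hx, rfl⟩
    have := h x hx
    rwa [dotProduct_smul, ← smul_dotProduct] at this

/-- Both inequalities in the standard basis. -/
theorem duality_std {K L : Set (Fin n → ℝ)} (hK : IsBody K) (hL : IsBody L) (huK : IsUncond K)
    (huL : IsUncond L) :
    (1 / 120 : ℝ) * Real.log (covNum (polar L) ((385 : ℝ) • polar K)) ≤ Real.log (covNum K L) ∧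
    Real.log (covNum K L) ≤
      120 * Real.log (covNum (polar L) ((385 : ℝ)⁻¹ • polar K)) := by
  have h385 : (385 : ℝ) ≠ 0 := by norm_num
  constructor
  · have hpK := isBody_polar hK
    have hpL := isBody_polar hL
    have h := uncond_bound hpL ((isUncond_polar huL).solid hpL) hpK
      ((isUncond_polar huK).solid hpK)
    rw [dualEnt, polar_polar hK, polar_polar hL] at h
    linarith
  · have hL' := isBody_smul hL (inv_ne_zero h385)
    have h := uncond_bound hK (huK.solid hK) hL'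
      ((isUncond_smul huL (inv_ne_zero h385)).solid hL')
    rwa [smul_inv_smul₀ h385, dualEnt, polar_smul L (inv_ne_zero h385), inv_inv,
      covNum_smul_right _ _ h385] at h

/-- Transfer along a linear automorphism of statements about the covering numbers of a pair and
of its polar pair. -/
theorem transport {K L : Set (Fin n → ℝ)} (T : (Fin n → ℝ) ≃ₗ[ℝ] (Fin n → ℝ)) (hK : IsBody K)
    (hL : IsBody L) {P : Set (Fin n → ℝ) → Set (Fin n → ℝ) → Prop}
    (hP : ∀ A B A' B', covNum A B = covNum A' B' →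
      (∀ t : ℝ, covNum (polar B) (t • polar A) = covNum (polar B') (t • polar A')) →
      P A B → P A' B')
    (h : IsBody (T '' K) → IsBody (T '' L) → P (T '' K) (T '' L)) : P K L := by
  classical
  have hbody : ∀ {C : Set (Fin n → ℝ)}, IsBody C → IsBody (T '' C) := fun {C} hC => by
    have hc : Continuous T := (T : (Fin n → ℝ) →ₗ[ℝ] Fin n → ℝ).continuous_of_finiteDimensional
    refine ⟨hC.1.linear_image (T : (Fin n → ℝ) →ₗ[ℝ] Fin n → ℝ), hC.2.1.image hc, ?_, ?_⟩
    · have e : T '' C = T.toContinuousLinearEquiv.toHomeomorph '' C := rfl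
      rw [e, ← Homeomorph.image_interior]
      exact hC.2.2.1.image _
    · rintro _ ⟨x, hx, rfl⟩
      exact ⟨-x, hC.2.2.2 x hx, map_neg T x⟩
  -- the transpose of `T`
  set A : (Fin n → ℝ) →ₗ[ℝ] Fin n → ℝ :=
    { toFun := fun y i => T (Pi.single i 1) ⬝ᵥ y
      map_add' := fun y z => funext fun i => dotProduct_add _ y z
      map_smul' := fun c y => funext fun i => dotProduct_smul c _ y } with hA
  have hadj : ∀ x y, x ⬝ᵥ A y = T x ⬝ᵥ y := fun x y => by
    conv_rhs => rw [pi_eq_sum_univ' x]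
    rw [map_sum, sum_dotProduct]
    refine sum_congr rfl fun i _ => ?_
    rw [map_smul, smul_dotProduct, smul_eq_mul]
    rfl
  have hinj : Function.Injective A := by
    rw [← LinearMap.ker_eq_bot, LinearMap.ker_eq_bot']
    intro y hy
    have h := hadj (T.symm y) y
    rw [hy, dotProduct_zero, LinearEquiv.apply_symm_apply] at h
    exact dotProduct_self_eq_zero.1 h.symm
  set Ae := LinearEquiv.ofInjectiveEndo A hinj with hAe
  have hpol : ∀ C : Set (Fin n → ℝ), Ae '' polar (T '' C) = polar C := fun C => by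
    ext w
    obtain ⟨y, rfl⟩ := Ae.surjective w
    rw [Ae.injective.mem_set_image]
    refine ⟨fun h x hx => ?_, fun h => ?_⟩
    · show x ⬝ᵥ A y ≤ 1
      rw [hadj]; exact h _ ⟨x, hx, rfl⟩
    · rintro _ ⟨x, hx, rfl⟩
      have h' : x ⬝ᵥ A y ≤ 1 := h x hx
      rwa [hadj] at h'
  refine hP _ _ _ _ (covNum_image T K L) (fun t => ?_) (h (hbody hK) (hbody hL))
  rw [← covNum_image Ae, image_smul_set, hpol, hpol]

end Vale.Agent.P126.Uncond

end
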