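import Mathlib
import Vale.Agent.P126.Uncond.Duality

/-!
# Entropy duality for a common basis with bounded unconditional constant
-/

noncomputable section

open Finset
open scoped BigOperators Pointwise

namespace Vale.Agent.P126.Uncond

variable {n : ℕ}

/-- The standard basis is unconditional for `K` with constant at most `C`. -/
def IsUncondWith (C : ℝ) (K : Set (Fin n → ℝ)) : Prop :=
  ∀ x ∈ K, ∀ y : Fin n → ℝ, (∀ i, |y i| = |x i|) → y ∈ C • K

/-- The largest sign-invariant subset. -/
def signCore (K : Set (Fin n → ℝ)) : Set (Fin n → ℝ) :=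
  {x | ∀ y : Fin n → ℝ, (∀ i, |y i| = |x i|) → y ∈ K}

theorem signCore_subset (K : Set (Fin n → ℝ)) : signCore K ⊆ K := fun x hx => hx x fun _ => rfl

theorem subset_smul_signCore {C : ℝ} (hC : 0 < C) {K : Set (Fin n → ℝ)}
    (hu : IsUncondWith C K) : K ⊆ C • signCore K := fun x hx => by
  refine (Set.mem_smul_set_iff_inv_smul_mem₀ hC.ne' _ _).2 fun y hy => ?_
  have h := hu x hx (C • y) fun i => by
    simp only [Pi.smul_apply, smul_eq_mul, abs_mul, hy i, abs_inv]
    field_simp
  rwa [Set.smul_mem_smul_set_iff₀ hC.ne'] at h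

theorem isUncond_signCore (K : Set (Fin n → ℝ)) : IsUncond (signCore K) :=
  fun _ hx _ hy z hz => hx z fun i => (hz i).trans (hy i)

theorem signCore_eq (K : Set (Fin n → ℝ)) :
    signCore K = ⋂ e ∈ {e : Fin n → ℝ | ∀ i, |e i| = 1}, (fun x => fun i => e i * x i) ⁻¹' K := by
  ext x
  simp only [Set.mem_iInter₂, Set.mem_preimage]
  refine ⟨fun h e he => h _ fun i => by rw [abs_mul, he i, one_mul], fun h y hy => ?_⟩
  have := h (fun i => if y i = x i then 1 else -1) fun i => by dsimp only; split_ifs <;> simp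
  convert this using 1
  funext i
  split_ifs with hi
  · rw [one_mul, hi]
  · rw [(abs_eq_abs.1 (hy i)).resolve_left hi]; ring

theorem isBody_signCore {C : ℝ} (hC : 0 < C) {K : Set (Fin n → ℝ)} (hK : IsBody K)
    (hu : IsUncondWith C K) : IsBody (signCore K) := by
  have hclosed : IsClosed (signCore K) := by
    rw [signCore_eq]
    exact isClosed_biInter fun e _ => hK.2.1.isClosed.preimage
      (continuous_pi fun i => continuous_const.mul (continuous_apply i))
  refine ⟨?_, hK.2.1.of_isClosed_subset hclosed (signCore_subset K), ?_, fun x hx y hy =>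
    hx y fun i => by simpa using hy i⟩
  · rw [signCore_eq]
    refine convex_iInter₂ fun e _ x hx y hy s t hs ht hst => ?_
    have h := hK.1 hx hy hs ht hst
    simp only [Set.mem_preimage]
    convert h using 1
    funext i
    simp only [Pi.add_apply, Pi.smul_apply, smul_eq_mul]
    ring
  · refine (smul_interior_nonempty hK.2.2.1 (inv_ne_zero hC.ne')).mono (interior_mono ?_)
    rw [← Set.subset_smul_set_iff₀ hC.ne']
    exact subset_smul_signCore hC hu

theorem covNum_mono {A A' B B' : Set (Fin n → ℝ)} (hA' : IsCompact A')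
    (hB' : (interior B').Nonempty) (hA : A ⊆ A') (hB : B' ⊆ B) :
    covNum A B ≤ covNum A' B' := by
  obtain ⟨v, hv⟩ := coveredBy_covNum hA' hB'
  exact Nat.sInf_le ⟨v, (hA.trans hv).trans (Set.iUnion_mono fun i => Set.image_mono hB)⟩

theorem log_covNum_mono {A A' B B' : Set (Fin n → ℝ)} (hA' : IsCompact A')
    (hB' : (interior B').Nonempty) (hA : A ⊆ A') (hB : B' ⊆ B) :
    Real.log (covNum A B) ≤ Real.log (covNum A' B') := by
  rcases Nat.eq_zero_or_pos (covNum A B) with h | h
  · rw [h, Nat.cast_zero, Real.log_zero]; exact Real.log_natCast_nonneg _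
  · exact Real.log_le_log (Nat.cast_pos.2 h) (Nat.cast_le.2 (covNum_mono hA' hB' hA hB))

theorem polar_anti {A B : Set (Fin n → ℝ)} (h : A ⊆ B) : polar B ⊆ polar A :=
  fun _ hy x hx => hy x (h hx)

theorem isUncondWith_polar {C : ℝ} (hC : 0 < C) {K : Set (Fin n → ℝ)} (hu : IsUncondWith C K) :
    IsUncondWith C (polar K) := by
  intro x hx y hy
  refine (Set.mem_smul_set_iff_inv_smul_mem₀ hC.ne' _ _).2 fun z hz => ?_
  classical
  set z' : Fin n → ℝ := fun i => if y i = x i then z i else -z i with hz'
  obtain ⟨w, hw, hwz⟩ := hu z hz z' fun i => by simp only [hz']; split_ifs <;> simp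
  have hyz : z ⬝ᵥ y = z' ⬝ᵥ x := sum_congr rfl fun i _ => by
    simp only [hz']
    split_ifs with h
    · rw [h]
    · rw [(abs_eq_abs.1 (hy i)).resolve_left h]; ring
  simp only at hwz
  rw [dotProduct_smul, hyz, ← hwz, smul_dotProduct, smul_eq_mul, smul_eq_mul,
    inv_mul_cancel_left₀ hC.ne']
  exact hx w hw

/-- One inequality, with the scale growing like the square of the unconditional constant. -/
theorem duality_upper {C : ℝ} (hC : 1 ≤ C) {K L : Set (Fin n → ℝ)} (hK : IsBody K)
    (hL : IsBody L) (huK : IsUncondWith C K) (huL : IsUncondWith C L) :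
    Real.log (covNum K L) ≤
      120 * Real.log (covNum (polar L) ((385 * C ^ 2)⁻¹ • polar K)) := by
  have hC0 : 0 < C := lt_of_lt_of_le one_pos hC
  have hK0 := isBody_signCore hC0 hK huK
  have hL0 := isBody_signCore hC0 hL huL
  have hL1 := isBody_smul hL0 (inv_ne_zero hC0.ne')
  have h1 : Real.log (covNum K L) ≤
      Real.log (covNum (signCore K) (C⁻¹ • signCore L)) := by
    rw [← covNum_smul_right _ _ hC0.ne']
    exact log_covNum_mono (hK0.2.1.smul C) hL0.2.2.1 (subset_smul_signCore hC0 huK)
      (signCore_subset L)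
  have h2 := (duality_std hK0 hL1 (isUncond_signCore K)
    (isUncond_smul (isUncond_signCore L) (inv_ne_zero hC0.ne'))).2
  refine h1.trans (h2.trans (mul_le_mul_of_nonneg_left ?_ (by norm_num)))
  rw [polar_smul _ (inv_ne_zero hC0.ne'), inv_inv, covNum_smul_right _ _ hC0.ne', smul_smul]
  have hsub : polar (signCore L) ⊆ C • polar L := by
    intro y hy
    refine (Set.mem_smul_set_iff_inv_smul_mem₀ hC0.ne' _ _).2 fun x hx => ?_
    obtain ⟨w, hw, rfl⟩ := subset_smul_signCore hC0 huL hx
    rw [smul_dotProduct, dotProduct_smul, smul_eq_mul, smul_eq_mul, mul_inv_cancel_left₀ hC0.ne']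
    exact hy w hw
  have hne : (C⁻¹ * (385 : ℝ)⁻¹) ≠ 0 := by positivity
  refine (log_covNum_mono ((isBody_polar hL).2.1.smul C)
    (smul_interior_nonempty (isBody_polar hK).2.2.1 hne) hsub
    (Set.smul_set_mono (polar_anti (signCore_subset K)))).trans (le_of_eq ?_)
  rw [covNum_smul_right _ _ hC0.ne', smul_smul]
  congr 4
  field_simp

/-- Both inequalities in a common basis whose unconditional constants are at most `C`. -/
theorem duality_with {C : ℝ} (hC : 1 ≤ C) {K L : Set (Fin n → ℝ)} (hK : IsBody K)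
    (hL : IsBody L) (T : (Fin n → ℝ) ≃ₗ[ℝ] (Fin n → ℝ)) (huK : IsUncondWith C (T '' K))
    (huL : IsUncondWith C (T '' L)) :
    (1 / 120 : ℝ) * Real.log (covNum (polar L) ((385 * C ^ 2) • polar K)) ≤
        Real.log (covNum K L) ∧
    Real.log (covNum K L) ≤
      120 * Real.log (covNum (polar L) ((385 * C ^ 2)⁻¹ • polar K)) := by
  have hC0 : 0 < C := lt_of_lt_of_le one_pos hC
  have std : ∀ {K L : Set (Fin n → ℝ)}, IsBody K → IsBody L → IsUncondWith C K →
      IsUncondWith C L →
      (1 / 120 : ℝ) * Real.log (covNum (polar L) ((385 * C ^ 2) • polar K)) ≤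
          Real.log (covNum K L) ∧
      Real.log (covNum K L) ≤
        120 * Real.log (covNum (polar L) ((385 * C ^ 2)⁻¹ • polar K)) := by
    intro K L hK hL huK huL
    refine ⟨?_, duality_upper hC hK hL huK huL⟩
    set a := 385 * C ^ 2 with ha
    have ha0 : a ≠ 0 := by positivity
    have hu : IsUncondWith C (a • polar K) := by
      rintro _ ⟨x, hx, rfl⟩ y hy
      have h := isUncondWith_polar hC0 huK x hx (a⁻¹ • y) fun i => by
        have h' := hy i
        simp only [Pi.smul_apply, smul_eq_mul, abs_mul, abs_inv] at h' ⊢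
        rw [h', inv_mul_cancel_left₀ (abs_ne_zero.2 ha0)]
      rwa [← Set.mem_smul_set_iff_inv_smul_mem₀ ha0, smul_comm] at h
    have h := duality_upper hC (isBody_polar hL) (isBody_smul (isBody_polar hK) ha0)
      (isUncondWith_polar hC0 huL) hu
    rw [polar_smul _ ha0, polar_polar hK, polar_polar hL, ← ha,
      covNum_smul_right _ _ (inv_ne_zero ha0), inv_inv, smul_inv_smul₀ ha0] at h
    linarith
  exact transport T hK hL (P := fun K L =>
    (1 / 120 : ℝ) * Real.log (covNum (polar L) ((385 * C ^ 2) • polar K)) ≤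
        Real.log (covNum K L) ∧
    Real.log (covNum K L) ≤
      120 * Real.log (covNum (polar L) ((385 * C ^ 2)⁻¹ • polar K)))
    (fun A B A' B' e1 e2 => by simp only [e1, e2]; exact id) (fun hA hB => std hA hB huK huL)

end Vale.Agent.P126.Uncond

end
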